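import Vale.Agent.P299.H721.Quad

/-!
# P299, INDEX-LOWER: the local lower bound
-/

open scoped ContDiff Topology ComplexConjugate Matrix ComplexOrder
open MeasureTheory Set Filter
open Vale.Agent.P272.K Vale.Agent.P272.K.INT Vale.Agent.P272.K.C2

noncomputable section

namespace Vale.Agent.P299.H721

variable {n : ℕ} {ι : Type*} [Fintype ι]

/-- the components of `∂̄ u` -/
def dV (u : Cm n → ι → ℂ) (z : Cm n) (b : Fin n) (i : ι) : ℂ := dzb b (fun y => u y i) z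

section integ

variable {u : Cm n → ι → ℂ}

omit [Fintype ι] in
lemma integrable_of_supp (hc : HasCompactSupport u) {F : Cm n → ℝ}
    (h0 : ∀ z, z ∉ tsupport u → F z = 0) (h1 : ∀ z ∈ tsupport u, ContinuousAt F z) :
    Integrable F := by
  have hF : Continuous F := by
    refine continuous_iff_continuousAt.2 fun z => ?_
    by_cases hz : z ∈ tsupport u
    · exact h1 z hz
    · have h : F =ᶠ[𝓝 z] fun _ => 0 := by
        filter_upwards [(isClosed_tsupport u).isOpen_compl.mem_nhds hz] with y hy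
        exact h0 y hy
      exact continuousAt_const.congr h.symm
  exact hF.integrable_of_hasCompactSupport (HasCompactSupport.intro hc h0)

lemma continuousAt_qf {M : Cm n → Matrix ι ι ℂ} {x : Cm n → ι → ℂ} {z : Cm n}
    (hM : ∀ i j, ContinuousAt (fun z => M z i j) z) (hx : ∀ i, ContinuousAt (fun z => x z i) z) :
    ContinuousAt (fun z => qf (M z) (x z)) z := by
  refine Complex.continuous_re.continuousAt.comp ?_
  simp only [dotProduct, Matrix.mulVec, Pi.star_apply]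
  refine tendsto_finsetSum _ fun i _ => ?_
  refine Filter.Tendsto.mul ?_ (tendsto_finsetSum _ fun j _ => ?_)
  · exact (continuous_star.continuousAt (x := x z i)).tendsto.comp (hx i)
  · exact (hM i j).mul (hx j)

omit [Fintype ι] in
lemma dV_zero {z : Cm n} (hz : z ∉ tsupport u) : dV u z = 0 := by
  funext b i
  have h : (fun y => u y i) =ᶠ[𝓝 z] fun _ => 0 := by
    filter_upwards [notMem_tsupport_iff_eventuallyEq.1 hz] with y hy
    simp [hy]
  show dzb b (fun y => u y i) z = 0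
  rw [Vale.Agent.P272.K.INT.dzb_congr h, Vale.Agent.P272.K.INT.dzb_const]

lemma comp_contDiff {m : WithTop ℕ∞} (hu : ContDiff ℝ m u) (i : ι) :
    ContDiff ℝ m (fun y => u y i) := contDiff_pi.1 hu i

lemma dV_cont (hu : ContDiff ℝ 2 u) (b : Fin n) (i : ι) : Continuous fun z => dV u z b i :=
  (contDiff_dzb (m := 1) (l := 2) (comp_contDiff hu i) (by norm_num) b).continuous

lemma en_zero (W : Matrix (Fin n) (Fin n) ℂ) (H : Matrix ι ι ℂ) : en W H 0 = 0 := by
  simp [en]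

end integ

/-- **The flat inequality** for vector valued functions and constant metrics. -/
theorem flat_vec {w : Matrix (Fin n) (Fin n) ℂ} (hw : w.PosDef) {H : Matrix ι ι ℂ}
    (hH : H.PosSemidef) {u : Cm n → ι → ℂ} (hu : ContDiff ℝ 2 u) (hc : HasCompactSupport u)
    {β : Cm n → Cm n} (hβ : ∀ z ∈ tsupport u, ContDiffAt ℝ 1 β z) (t : ℝ) :
    t * ∫ z, (∑ b, dz b (fun y => β y b) z).re * qf H (u z) ≤
      (∫ z, en w⁻¹ H (dV u z)) + t ^ 2 * ∫ z, qf wᵀ (β z) * qf H (u z) := by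
  classical
  obtain ⟨C, hC⟩ := exists_factor hH
  obtain ⟨L, hL⟩ := exists_factor hw.transpose.posSemidef
  have hLdet : IsUnit L.det := by
    have h1 : (wᵀ).det ≠ 0 := hw.transpose.det_pos.ne'
    rw [hL, Matrix.det_mul] at h1
    exact isUnit_iff_ne_zero.2 (right_ne_zero_of_mul h1)
  set K : Matrix (Fin n) (Fin n) ℂ := (L⁻¹)ᴴ with hK
  have hLi : L⁻¹ * L = 1 := Matrix.nonsing_inv_mul _ hLdet
  have hW : ∀ b l, w⁻¹ b l = ∑ m, K m b * conj (K m l) := by
    have h1 : (w⁻¹)ᵀ = L⁻¹ * (L⁻¹)ᴴ := by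
      rw [Matrix.transpose_nonsing_inv, hL, Matrix.mul_inv_rev, Matrix.conjTranspose_nonsing_inv]
    intro b l
    have h2 : w⁻¹ b l = (L⁻¹ * (L⁻¹)ᴴ) l b := by rw [← h1]; rfl
    rw [h2, Matrix.mul_apply]
    refine Finset.sum_congr rfl fun m _ => ?_
    simp only [hK, Matrix.conjTranspose_apply, Complex.star_def, Complex.conj_conj]
    ring
  let f : ι → Cm n → ℂ := fun c z => (C *ᵥ u z) c
  let γ : Fin n → Cm n → ℂ := fun m z => (L *ᵥ β z) m
  have hf : ∀ c, ContDiff ℝ 2 (f c) := fun c => by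
    have : f c = fun z => ∑ i, C c i * u z i := by
      funext z; simp [f, Matrix.mulVec, dotProduct]
    rw [this]
    exact ContDiff.sum fun i _ => contDiff_const.mul (comp_contDiff hu i)
  have hft : ∀ c, tsupport (f c) ⊆ tsupport u := fun c => by
    refine closure_minimal (fun z hz => ?_) (isClosed_tsupport u)
    by_contra h
    refine hz ?_
    show (C *ᵥ u z) c = 0
    rw [image_eq_zero_of_notMem_tsupport h]
    simp
  have hfc : ∀ c, HasCompactSupport (f c) := fun c =>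
    HasCompactSupport.intro hc fun z hz => by
      show (C *ᵥ u z) c = 0
      rw [image_eq_zero_of_notMem_tsupport hz]
      simp
  have hβc : ∀ z ∈ tsupport u, ∀ b, ContDiffAt ℝ 1 (fun y => β y b) z := fun z hz b =>
    contDiffAt_pi.1 (hβ z hz) b
  have hγ : ∀ m, ∀ z ∈ tsupport u, ContDiffAt ℝ 1 (γ m) z := fun m z hz => by
    have : γ m = fun z => ∑ i, L m i * β z i := by
      funext z; simp [γ, Matrix.mulVec, dotProduct]
    rw [this]
    exact ContDiffAt.sum fun i _ => contDiffAt_const.mul (hβc z hz i)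
  -- pointwise identities
  have e1 : ∀ z, en w⁻¹ H (dV u z) = ∑ m, ∑ c, ‖DD (K m) (f c) z‖ ^ 2 := fun z => by
    rw [en_factor hW, hC]
    refine Finset.sum_congr rfl fun m _ => ?_
    rw [qf_conj]
    refine Finset.sum_congr rfl fun c _ => ?_
    congr 2
    have h1 : ∀ b, dzb b (f c) z = ∑ i, C c i * dzb b (fun y => u y i) z := fun b => by
      have : f c = fun z => ∑ i, C c i * u z i := by
        funext z; simp [f, Matrix.mulVec, dotProduct]
      rw [this, Vale.Agent.P272.K.INT.dzb_sum Finset.univ fun i _ =>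
        (((comp_contDiff hu i).differentiable (by norm_num)) z).const_mul _]
      exact Finset.sum_congr rfl fun i _ => Vale.Agent.P272.K.INT.dzb_const_mul _
        (((comp_contDiff hu i).differentiable (by norm_num)) z)
    simp only [DD, h1, Matrix.mulVec, dotProduct, Finset.sum_apply, Pi.smul_apply, smul_eq_mul,
      Finset.mul_sum, dV]
    rw [Finset.sum_comm]
    refine Finset.sum_congr rfl fun b _ => Finset.sum_congr rfl fun i _ => ?_
    ring
  have e2 : ∀ z, qf H (u z) = ∑ c, ‖f c z‖ ^ 2 := fun z => by rw [hC, qf_conj]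
  have e3 : ∀ z, qf wᵀ (β z) = ∑ m, ‖γ m z‖ ^ 2 := fun z => by rw [hL, qf_conj]
  have e4 : ∀ z ∈ tsupport u, ∑ m, DD' (K m) (γ m) z = ∑ b, dz b (fun y => β y b) z := by
    intro z hz
    have h1 : ∀ m b, dz b (γ m) z = ∑ p, L m p * dz b (fun y => β y p) z := fun m b => by
      have : γ m = fun z => ∑ i, L m i * β z i := by
        funext z; simp [γ, Matrix.mulVec, dotProduct]
      rw [this, Vale.Agent.P272.K.INT.dz_sum Finset.univ fun i _ =>
        ((hβc z hz i).differentiableAt (by norm_num)).const_mul _]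
      exact Finset.sum_congr rfl fun i _ => Vale.Agent.P272.K.INT.dz_const_mul _
        ((hβc z hz i).differentiableAt (by norm_num))
    have h2 : ∀ m b, conj (K m b) = L⁻¹ b m := fun m b => by
      simp [hK, Matrix.conjTranspose_apply]
    simp only [DD', h1, h2, Finset.mul_sum]
    have h3 : ∀ b p, ∑ m, L⁻¹ b m * L m p = if b = p then 1 else 0 := fun b p => by
      rw [← Matrix.mul_apply, hLi, Matrix.one_apply]
    calc ∑ m, ∑ b, ∑ p, L⁻¹ b m * (L m p * dz b (fun y => β y p) z)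
        = ∑ b, ∑ p, (∑ m, L⁻¹ b m * L m p) * dz b (fun y => β y p) z := by
          rw [Finset.sum_comm]
          refine Finset.sum_congr rfl fun b _ => ?_
          rw [Finset.sum_comm]
          refine Finset.sum_congr rfl fun p _ => ?_
          rw [Finset.sum_mul]
          exact Finset.sum_congr rfl fun m _ => by ring
      _ = ∑ b, dz b (fun y => β y b) z := by
          refine Finset.sum_congr rfl fun b _ => ?_
          simp [h3]
  -- integrability
  have z1 : ∀ z, z ∉ tsupport u → ∀ c, f c z = 0 := fun z hz c => by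
    show (C *ᵥ u z) c = 0
    rw [image_eq_zero_of_notMem_tsupport hz]
    simp
  have z2 : ∀ z, z ∉ tsupport u → ∀ m c, DD (K m) (f c) z = 0 := fun z hz m c =>
    DD_zero_of_notMem fun h => hz (hft c h)
  have I1 : ∀ m c, Integrable fun z => ‖DD (K m) (f c) z‖ ^ 2 := fun m c => by
    refine integrable_of_supp hc (fun z hz => by simp [z2 z hz]) fun z _ => ?_
    exact ((((contDiff_DD (m := 1) (hf c) (by norm_num)).continuous).norm).pow 2).continuousAt
  have I2 : ∀ m c, Integrable fun z => ‖γ m z‖ ^ 2 * ‖f c z‖ ^ 2 := fun m c => by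
    refine integrable_of_supp hc (fun z hz => by simp [z1 z hz]) fun z hz => ?_
    exact ((hγ m z hz).continuousAt.norm.pow 2).mul
      (((hf c).continuous.norm.pow 2).continuousAt)
  have I3 : ∀ m c, Integrable fun z => (DD' (K m) (γ m) z).re * ‖f c z‖ ^ 2 := fun m c => by
    refine integrable_of_supp hc (fun z hz => by simp [z1 z hz]) fun z hz => ?_
    have : ContDiffAt ℝ 0 (DD' (K m) (γ m)) z := by
      unfold DD'
      exact ContDiffAt.sum fun b _ => contDiffAt_const.mul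
        (Vale.Agent.P272.K.INT.contDiffAt_dz (hγ m z hz) (by norm_num))
    exact (Complex.continuous_re.continuousAt.comp this.continuousAt).mul
      (((hf c).continuous.norm.pow 2).continuousAt)
  have s1 : ∫ z, en w⁻¹ H (dV u z) = ∑ m, ∑ c, ∫ z, ‖DD (K m) (f c) z‖ ^ 2 := by
    simp only [e1]
    rw [integral_finsetSum _ fun m _ => integrable_finsetSum _ fun c _ => I1 m c]
    exact Finset.sum_congr rfl fun m _ => integral_finsetSum _ fun c _ => I1 m c
  have s2 : ∫ z, qf wᵀ (β z) * qf H (u z) = ∑ m, ∑ c, ∫ z, ‖γ m z‖ ^ 2 * ‖f c z‖ ^ 2 := by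
    have h1 : ∀ z, qf wᵀ (β z) * qf H (u z) = ∑ m, ∑ c, ‖γ m z‖ ^ 2 * ‖f c z‖ ^ 2 := fun z => by
      rw [e2, e3, Finset.sum_mul_sum]
    simp only [h1]
    rw [integral_finsetSum _ fun m _ => integrable_finsetSum _ fun c _ => I2 m c]
    exact Finset.sum_congr rfl fun m _ => integral_finsetSum _ fun c _ => I2 m c
  have s3 : ∫ z, (∑ b, dz b (fun y => β y b) z).re * qf H (u z) =
      ∑ m, ∑ c, ∫ z, (DD' (K m) (γ m) z).re * ‖f c z‖ ^ 2 := by
    have h1 : ∀ z, (∑ b, dz b (fun y => β y b) z).re * qf H (u z) =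
        ∑ m, ∑ c, (DD' (K m) (γ m) z).re * ‖f c z‖ ^ 2 := fun z => by
      by_cases hz : z ∈ tsupport u
      · rw [← e4 z hz, e2, Complex.re_sum, Finset.sum_mul]
        exact Finset.sum_congr rfl fun m _ => by rw [Finset.mul_sum]
      · rw [image_eq_zero_of_notMem_tsupport hz, qf_zero]
        simp [z1 z hz]
    simp only [h1]
    rw [integral_finsetSum _ fun m _ => integrable_finsetSum _ fun c _ => I3 m c]
    exact Finset.sum_congr rfl fun m _ => integral_finsetSum _ fun c _ => I3 m c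
  rw [s1, s2, s3, Finset.mul_sum, Finset.mul_sum, ← Finset.sum_add_distrib]
  refine Finset.sum_le_sum fun m _ => ?_
  rw [Finset.mul_sum, Finset.mul_sum, ← Finset.sum_add_distrib]
  refine Finset.sum_le_sum fun c _ => ?_
  exact flat_one t (hf c) (hfc c) fun z hz => hγ m z (hft c hz)

/-- the comparisons used near the centre -/
structure Near (z₀ : Cm n) (w : Cm n → Matrix (Fin n) (Fin n) ℂ) (H R : Cm n → Matrix ι ι ℂ)
    (V : Cm n → ℝ) (v : Cm n → Cm n) (S : Matrix (Fin n) (Fin n) ℂ) (τ ε : ℝ) (z : Cm n) :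
    Prop where
  cH : ∀ x, |qf (H z) x - qf (H z₀) x| ≤ ε * qf (H z₀) x
  cE : ∀ ξ, |en (w z)⁻¹ (H z) ξ - en (w z₀)⁻¹ (H z₀) ξ| ≤ ε * en (w z₀)⁻¹ (H z₀) ξ
  cR : ∀ x, |qf (R z) x - qf (R z₀) x| ≤ ε * qf (H z₀) x
  cw : ∀ x, |qf (w z)ᵀ x - qf (w z₀)ᵀ x| ≤ ε * qf (w z₀)ᵀ x
  cdiv : |(∑ b, dz b (fun y => (S *ᵥ v y) b) z).re - τ| ≤ ε
  smw : MC 1 w z
  det : (w z).det ≠ 0
  smH : MC 1 H z
  smR : MC 1 R z
  smV : ContinuousAt V z
  hV : qf (w z)ᵀ (v z) ≤ V z
  smS : ContDiffAt ℝ 1 (fun y => S *ᵥ v y) z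

section loc

variable {z₀ : Cm n} {w : Cm n → Matrix (Fin n) (Fin n) ℂ} {H R : Cm n → Matrix ι ι ℂ}
    {V : Cm n → ℝ} {v : Cm n → Cm n} {c τ ε : ℝ} {S : Matrix (Fin n) (Fin n) ℂ}
    {u : Cm n → ι → ℂ}

lemma int_qf {M : Cm n → Matrix ι ι ℂ} (hu : ContDiff ℝ 2 u) (hcs : HasCompactSupport u)
    (hM : ∀ z ∈ tsupport u, MC 1 M z) : Integrable fun z => qf (M z) (u z) :=
  integrable_of_supp hcs (fun z hz => by rw [image_eq_zero_of_notMem_tsupport hz, qf_zero])
    fun z hz => continuousAt_qf (fun i j => (hM z hz i j).continuousAt)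
      fun i => (comp_contDiff hu i).continuous.continuousAt

omit [Fintype ι] in
lemma mc_const (M : Matrix ι ι ℂ) (z : Cm n) : MC 1 (fun _ => M) z :=
  fun _ _ => contDiffAt_const

lemma int_mul_qf {M : Cm n → Matrix ι ι ℂ} {F : Cm n → ℝ} (hu : ContDiff ℝ 2 u)
    (hcs : HasCompactSupport u) (hM : ∀ z ∈ tsupport u, MC 1 M z)
    (hF : ∀ z ∈ tsupport u, ContinuousAt F z) : Integrable fun z => F z * qf (M z) (u z) :=
  integrable_of_supp hcs
    (fun z hz => by rw [image_eq_zero_of_notMem_tsupport hz, qf_zero, mul_zero])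
    fun z hz => (hF z hz).mul (continuousAt_qf (fun i j => (hM z hz i j).continuousAt)
      fun i => (comp_contDiff hu i).continuous.continuousAt)

lemma int_en {W : Cm n → Matrix (Fin n) (Fin n) ℂ} {M : Cm n → Matrix ι ι ℂ}
    (hu : ContDiff ℝ 2 u) (hcs : HasCompactSupport u) (hW : ∀ z ∈ tsupport u, MC 1 W z)
    (hM : ∀ z ∈ tsupport u, MC 1 M z) : Integrable fun z => en (W z) (M z) (dV u z) :=
  integrable_of_supp hcs (fun z hz => by rw [dV_zero hz, en_zero]) fun z hz => by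
    simp only [en_eq_qf]
    refine continuousAt_qf (fun p q => ?_) fun p => (dV_cont hu p.1 p.2).continuousAt
    simp only [Matrix.kroneckerMap_apply, Matrix.transpose_apply]
    exact ((hW z hz) q.1 p.1).continuousAt.mul ((hM z hz p.2 q.2).continuousAt)

lemma near_m1 (hu : ContDiff ℝ 2 u) (hcs : HasCompactSupport u)
    (P : ∀ z ∈ tsupport u, Near z₀ w H R V v S τ ε z) :
    (∫ z, qf (H z) (u z)) ≤ (1 + ε) * ∫ z, qf (H z₀) (u z) := by
  rw [← integral_const_mul]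
  refine integral_mono (int_qf hu hcs fun z hz => (P z hz).smH)
    ((int_qf hu hcs fun z _ => mc_const _ z).const_mul _) fun z => ?_
  by_cases hz : z ∈ tsupport u
  · have := (abs_le.1 ((P z hz).cH (u z))).2
    simp only
    linarith
  · simp only [image_eq_zero_of_notMem_tsupport hz, qf_zero]; simp

lemma near_m2 (hu : ContDiff ℝ 2 u) (hcs : HasCompactSupport u)
    (P : ∀ z ∈ tsupport u, Near z₀ w H R V v S τ ε z) :
    (1 - ε) * (∫ z, en (w z₀)⁻¹ (H z₀) (dV u z)) ≤ ∫ z, en (w z)⁻¹ (H z) (dV u z) := by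
  rw [← integral_const_mul]
  refine integral_mono ((int_en hu hcs (fun z _ => mc_const _ z)
    fun z _ => mc_const _ z).const_mul _) (int_en hu hcs
    (fun z hz => (P z hz).smw.inv (P z hz).det) fun z hz => (P z hz).smH) fun z => ?_
  by_cases hz : z ∈ tsupport u
  · have := (abs_le.1 ((P z hz).cE (dV u z))).1
    simp only
    linarith
  · simp only [dV_zero hz, en_zero]; simp

lemma near_m3 (hP : ∀ x, c * qf (H z₀) x ≤ qf (R z₀) x + τ * qf (H z₀) x)
    (hu : ContDiff ℝ 2 u) (hcs : HasCompactSupport u)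
    (P : ∀ z ∈ tsupport u, Near z₀ w H R V v S τ ε z) :
    (c - τ - ε) * (∫ z, qf (H z₀) (u z)) ≤ ∫ z, qf (R z) (u z) := by
  rw [← integral_const_mul]
  refine integral_mono ((int_qf hu hcs fun z _ => mc_const _ z).const_mul _)
    (int_qf hu hcs fun z hz => (P z hz).smR) fun z => ?_
  by_cases hz : z ∈ tsupport u
  · have h1 := (abs_le.1 ((P z hz).cR (u z))).1
    have h2 := hP (u z)
    simp only
    linarith
  · simp only [image_eq_zero_of_notMem_tsupport hz, qf_zero]; simp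

lemma int_m4 (hu : ContDiff ℝ 2 u) (hcs : HasCompactSupport u)
    (P : ∀ z ∈ tsupport u, Near z₀ w H R V v S τ ε z) :
    Integrable fun z => qf (w z₀)ᵀ (S *ᵥ v z) * qf (H z₀) (u z) := by
  refine int_mul_qf hu hcs (M := fun _ => H z₀) (F := fun z => qf (w z₀)ᵀ (S *ᵥ v z))
    (fun z _ => mc_const _ z) fun z hz => ?_
  have h1 := (P z hz).smS
  exact continuousAt_qf (M := fun _ => (w z₀)ᵀ) (x := fun z => S *ᵥ v z)
    (fun i j => continuousAt_const) fun b => (contDiffAt_pi.1 h1 b).continuousAt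

lemma near_m4 (hw0 : (w z₀).PosDef) (hH0 : (H z₀).PosDef) (hε : 0 < ε) (hε2 : ε ≤ 1 / 2)
    (hS : ∀ x, qf (w z₀)ᵀ (S *ᵥ x) ≤ qf (w z₀)ᵀ x)
    (hu : ContDiff ℝ 2 u) (hcs : HasCompactSupport u)
    (P : ∀ z ∈ tsupport u, Near z₀ w H R V v S τ ε z) :
    (1 - ε) ^ 2 * (∫ z, qf (w z₀)ᵀ (S *ᵥ v z) * qf (H z₀) (u z)) ≤
      ∫ z, V z * qf (H z) (u z) := by
  rw [← integral_const_mul]
  refine integral_mono ((int_m4 hu hcs P).const_mul _)
    (int_mul_qf hu hcs (fun z hz => (P z hz).smH) fun z hz => (P z hz).smV) fun z => ?_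
  by_cases hz : z ∈ tsupport u
  · have h1 := (abs_le.1 ((P z hz).cH (u z))).1
    have h2 := (abs_le.1 ((P z hz).cw (v z))).1
    have h3 := (P z hz).hV
    have h4 := hS (v z)
    have h5 : 0 ≤ qf (w z₀)ᵀ (S *ᵥ v z) := qf_nonneg hw0.transpose.posSemidef _
    have h6 : 0 ≤ qf (H z₀) (u z) := qf_nonneg hH0.posSemidef _
    have h7 : (1 - ε) * qf (w z₀)ᵀ (S *ᵥ v z) ≤ V z := by
      have : (1 - ε) * qf (w z₀)ᵀ (S *ᵥ v z) ≤ (1 - ε) * qf (w z₀)ᵀ (v z) :=
        mul_le_mul_of_nonneg_left h4 (by linarith)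
      linarith
    have h8 : (1 - ε) * qf (H z₀) (u z) ≤ qf (H z) (u z) := by linarith
    have h9 : 0 ≤ (1 - ε) * qf (H z₀) (u z) := mul_nonneg (by linarith) h6
    have h10 : 0 ≤ (1 - ε) * qf (w z₀)ᵀ (S *ᵥ v z) := mul_nonneg (by linarith) h5
    calc (1 - ε) ^ 2 * (qf (w z₀)ᵀ (S *ᵥ v z) * qf (H z₀) (u z))
        = ((1 - ε) * qf (w z₀)ᵀ (S *ᵥ v z)) * ((1 - ε) * qf (H z₀) (u z)) := by ring
      _ ≤ V z * qf (H z) (u z) := mul_le_mul h7 h8 h9 (h10.trans h7)
  · simp only [image_eq_zero_of_notMem_tsupport hz, qf_zero]; simp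

lemma near_m5 (hH0 : (H z₀).PosDef) (hu : ContDiff ℝ 2 u) (hcs : HasCompactSupport u)
    (P : ∀ z ∈ tsupport u, Near z₀ w H R V v S τ ε z) :
    (τ - ε) * (∫ z, qf (H z₀) (u z)) ≤
      ∫ z, (∑ b, dz b (fun y => (S *ᵥ v y) b) z).re * qf (H z₀) (u z) := by
  rw [← integral_const_mul]
  refine integral_mono ((int_qf hu hcs fun z _ => mc_const _ z).const_mul _)
    (int_mul_qf hu hcs (fun z _ => mc_const _ z) fun z hz => ?_) fun z => ?_
  · refine Complex.continuous_re.continuousAt.comp (tendsto_finsetSum _ fun b _ => ?_)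
    exact (Vale.Agent.P272.K.INT.contDiffAt_dz (m := 0) (contDiffAt_pi.1 (P z hz).smS b)
      (by norm_num)).continuousAt
  · by_cases hz : z ∈ tsupport u
    · have h1 := (abs_le.1 (P z hz).cdiv).1
      exact mul_le_mul_of_nonneg_right (by linarith) (qf_nonneg hH0.posSemidef _)
    · simp only [image_eq_zero_of_notMem_tsupport hz, qf_zero]; simp

lemma near_main [DecidableEq ι] (hc : 0 < c) (hε : 0 < ε) (hε2 : ε ≤ 1 / 2)
    (hε3 : 2 * ε * (|τ| + 1) ≤ c / 4)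
    (hw0 : (w z₀).PosDef) (hH0 : (H z₀).PosDef)
    (hS : ∀ x, qf (w z₀)ᵀ (S *ᵥ x) ≤ qf (w z₀)ᵀ x)
    (hP : ∀ x, c * qf (H z₀) x ≤ qf (R z₀) x + τ * qf (H z₀) x)
    (hu : ContDiff ℝ 2 u) (hcs : HasCompactSupport u)
    (P : ∀ z ∈ tsupport u, Near z₀ w H R V v S τ ε z) {t : ℝ} (ht : 0 ≤ t) :
    c / 2 * t * ∫ z, qf (H z) (u z) ≤ (∫ z, en (w z)⁻¹ (H z) (dV u z)) +
        t * (∫ z, qf (R z) (u z)) + t ^ 2 * ∫ z, V z * qf (H z) (u z) := by
  have flat := flat_vec hw0 hH0.posSemidef hu hcs (β := fun z => S *ᵥ v z)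
    (fun z hz => (P z hz).smS) t
  have N1 : 0 ≤ ∫ z, qf (H z₀) (u z) := integral_nonneg fun z => qf_nonneg hH0.posSemidef _
  have m1 := near_m1 hu hcs P
  have m2 := near_m2 hu hcs P
  have m3 := near_m3 hP hu hcs P
  have m4 := near_m4 hw0 hH0 hε hε2 hS hu hcs P
  have m5 := near_m5 hH0 hu hcs P
  have N2 : 0 ≤ ∫ z, en (w z₀)⁻¹ (H z₀) (dV u z) :=
    integral_nonneg fun z => en_nonneg hw0.inv.posSemidef hH0.posSemidef _
  have k1 : (1 - ε) ^ 2 * (∫ z, en (w z₀)⁻¹ (H z₀) (dV u z)) ≤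
      (1 - ε) * (∫ z, en (w z₀)⁻¹ (H z₀) (dV u z)) :=
    mul_le_mul_of_nonneg_right (by nlinarith) N2
  generalize (∫ z, qf (H z₀) (u z)) = A at *
  generalize (∫ z, qf (H z) (u z)) = A' at *
  generalize (∫ z, en (w z₀)⁻¹ (H z₀) (dV u z)) = B at *
  generalize (∫ z, en (w z)⁻¹ (H z) (dV u z)) = B' at *
  generalize (∫ z, qf (R z) (u z)) = D at *
  generalize (∫ z, V z * qf (H z) (u z)) = F at *
  generalize (∫ z, qf (w z₀)ᵀ (S *ᵥ v z) * qf (H z₀) (u z)) = G at *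
  generalize (∫ z, (∑ b, dz b (fun y => (S *ᵥ v y) b) z).re * qf (H z₀) (u z)) = Q at *
  have k2 := mul_le_mul_of_nonneg_left flat (sq_nonneg (1 - ε))
  have k3 := mul_le_mul_of_nonneg_left m5 (mul_nonneg (sq_nonneg (1 - ε)) ht)
  have k4 := mul_le_mul_of_nonneg_left m3 ht
  have k5 := mul_le_mul_of_nonneg_left m4 (sq_nonneg t)
  have k6 : c / 2 * t * A' ≤ c / 2 * t * ((1 + ε) * A) :=
    mul_le_mul_of_nonneg_left m1 (by positivity)
  have k7 : c / 2 * (1 + ε) ≤ (1 - ε) ^ 2 * (τ - ε) + (c - τ - ε) := by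
    have h1 := le_abs_self τ
    have h2 := neg_abs_le τ
    have a0 : 0 ≤ 2 * ε - ε ^ 2 := by nlinarith
    have a1 : τ * (2 * ε - ε ^ 2) ≤ |τ| * (2 * ε - ε ^ 2) := mul_le_mul_of_nonneg_right h1 a0
    have a2 : |τ| * (2 * ε - ε ^ 2) ≤ |τ| * (2 * ε) :=
      mul_le_mul_of_nonneg_left (by nlinarith) (abs_nonneg τ)
    have a3 : ε * (1 - ε) ^ 2 ≤ ε * 1 := mul_le_mul_of_nonneg_left (by nlinarith) hε.le
    have a4 : c / 2 * ε ≤ c / 2 * (1 / 2) := mul_le_mul_of_nonneg_left hε2 (by positivity)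
    nlinarith [a1, a2, a3, a4]
  have k8 : c / 2 * (1 + ε) * (t * A) ≤
      ((1 - ε) ^ 2 * (τ - ε) + (c - τ - ε)) * (t * A) :=
    mul_le_mul_of_nonneg_right k7 (mul_nonneg ht N1)
  nlinarith [k1, k2, k3, k4, k5, k6, k8, m2]

lemma eventually_near (hε : 0 < ε) (hw : MC 1 w z₀) (hw0 : (w z₀).PosDef)
    (hH : MC 1 H z₀) (hH0 : (H z₀).PosDef) (hR : MC 1 R z₀) (hVc : ∀ᶠ z in 𝓝 z₀, ContinuousAt V z)
    (hv : ContDiffAt ℝ 1 v z₀) (hV : ∀ᶠ z in 𝓝 z₀, qf (w z)ᵀ (v z) ≤ V z) :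
    ∀ᶠ z in 𝓝 z₀, Near z₀ w H R V v S (∑ b, dz b (fun y => (S *ᵥ v y) b) z₀).re ε z := by
  classical
  have hdet : (w z₀).det ≠ 0 := hw0.det_pos.ne'
  have hWi : MC 1 (fun z => (w z)⁻¹) z₀ := hw.inv hdet
  have hSv : ∀ᶠ z in 𝓝 z₀, ContDiffAt ℝ 1 (fun y => S *ᵥ v y) z := by
    have h1 : ∀ᶠ z in 𝓝 z₀, ContDiffAt ℝ 1 v z := hv.eventually (by simp)
    filter_upwards [h1] with z hz
    refine contDiffAt_pi.2 fun b => ?_
    simp only [Matrix.mulVec, dotProduct]
    exact ContDiffAt.sum fun p _ => contDiffAt_const.mul (contDiffAt_pi.1 hz p)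
  have hdiv : ContinuousAt (fun z => (∑ b, dz b (fun y => (S *ᵥ v y) b) z).re) z₀ := by
    have h0 := hSv.self_of_nhds
    refine Complex.continuous_re.continuousAt.comp ?_
    refine tendsto_finsetSum _ fun b _ => ?_
    exact (Vale.Agent.P272.K.INT.contDiffAt_dz (m := 0) (contDiffAt_pi.1 h0 b)
      (by norm_num)).continuousAt
  have c1 := qf_near (fun i j => (hH i j).continuousAt) hH0 hε
  have c2 := en_near (fun i j => (hWi i j).continuousAt) (fun i j => (hH i j).continuousAt)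
    hw0.inv hH0 hε
  have c3 := qf_near (fun i j => (hR i j).continuousAt) hH0 hε
  have c4 := qf_near (M := fun z => (w z)ᵀ) (fun i j => (hw j i).continuousAt) hw0.transpose hε
  have c5 : ∀ᶠ z in 𝓝 z₀, |(∑ b, dz b (fun y => (S *ᵥ v y) b) z).re -
      (∑ b, dz b (fun y => (S *ᵥ v y) b) z₀).re| ≤ ε := by
    filter_upwards [Metric.tendsto_nhds.1 hdiv ε hε] with z hz
    rw [Real.dist_eq] at hz
    exact hz.le
  have c6 : ∀ᶠ z in 𝓝 z₀, (w z).det ≠ 0 := (hw.det).continuousAt.eventually_ne hdet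
  filter_upwards [c1, c2, c3, c4, c5, c6, hw.eventually (q := 1), hH.eventually (q := 1),
    hR.eventually (q := 1), hVc, hV, hSv] with z a1 a2 a3 a4 a5 a6 a7 a8 a9 a10 a11 a12
  exact ⟨a1, a2, a3, a4, a5, a7, a6, a8, a9, a10, a11, a12⟩

/-- **The local lower bound.** `w` is the metric of the base, `H` the metric of the fibres (times
the density), `R` the (metric times the) zeroth order term, `V ≥ |v|²`, `S` a contraction at the
centre with `⟨R x, x⟩ + Re div (S v) |x|² ≥ c |x|²` at the centre. -/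
theorem local_bound [DecidableEq ι] (hw : MC 1 w z₀) (hw0 : (w z₀).PosDef)
    (hH : MC 1 H z₀) (hH0 : (H z₀).PosDef) (hR : MC 1 R z₀) (hVc : ∀ᶠ z in 𝓝 z₀, ContinuousAt V z)
    (hv : ContDiffAt ℝ 1 v z₀) (hV : ∀ᶠ z in 𝓝 z₀, qf (w z)ᵀ (v z) ≤ V z) (hc : 0 < c)
    (hS : ∀ x, qf (w z₀)ᵀ (S *ᵥ x) ≤ qf (w z₀)ᵀ x)
    (hP : ∀ x, c * qf (H z₀) x ≤ qf (R z₀) x +
      (∑ b, dz b (fun y => (S *ᵥ v y) b) z₀).re * qf (H z₀) x) :
    ∃ r > 0, ∀ t : ℝ, 0 ≤ t → ∀ u : Cm n → ι → ℂ, ContDiff ℝ 2 u → HasCompactSupport u →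
      tsupport u ⊆ Metric.ball z₀ r →
      c / 2 * t * ∫ z, qf (H z) (u z) ≤ (∫ z, en (w z)⁻¹ (H z) (dV u z)) +
        t * (∫ z, qf (R z) (u z)) + t ^ 2 * ∫ z, V z * qf (H z) (u z) := by
  set τ : ℝ := (∑ b, dz b (fun y => (S *ᵥ v y) b) z₀).re with hτ
  set ε : ℝ := min (1 / 2) (c / (8 * (|τ| + 1))) with hε
  have hτ1 : 0 < |τ| + 1 := by positivity
  have hε0 : 0 < ε := lt_min (by norm_num) (by positivity)
  have hε2 : ε ≤ 1 / 2 := min_le_left _ _
  have hε3 : 2 * ε * (|τ| + 1) ≤ c / 4 := by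
    have : ε ≤ c / (8 * (|τ| + 1)) := min_le_right _ _
    rw [le_div_iff₀ (by positivity)] at this
    nlinarith
  obtain ⟨r, hr, hball⟩ := Metric.eventually_nhds_iff_ball.1
    (eventually_near (S := S) hε0 hw hw0 hH hH0 hR hVc hv hV)
  exact ⟨r, hr, fun t ht u hu hcs hsupp => near_main hc hε0 hε2 hε3 hw0 hH0 hS hP hu hcs
    (fun z hz => hball z (hsupp hz)) ht⟩

/-- The local lower bound at a point where the potential is positive. -/
theorem local_bound_pos [DecidableEq ι] (hw : MC 1 w z₀) (hw0 : (w z₀).PosDef)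
    (hwp : ∀ᶠ z in 𝓝 z₀, (w z).PosDef) (hHp : ∀ᶠ z in 𝓝 z₀, (H z).PosDef)
    (hH : MC 1 H z₀) (hH0 : (H z₀).PosDef) (hR : MC 1 R z₀) (hVc : ∀ᶠ z in 𝓝 z₀, ContinuousAt V z)
    (hV : 0 < V z₀) :
    ∃ r > 0, ∃ t₀ : ℝ, ∀ t : ℝ, t₀ ≤ t → ∀ u : Cm n → ι → ℂ, ContDiff ℝ 2 u →
      HasCompactSupport u → tsupport u ⊆ Metric.ball z₀ r →
      t * ∫ z, qf (H z) (u z) ≤ (∫ z, en (w z)⁻¹ (H z) (dV u z)) +
        t * (∫ z, qf (R z) (u z)) + t ^ 2 * ∫ z, V z * qf (H z) (u z) := by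
  classical
  have hdet : (w z₀).det ≠ 0 := hw0.det_pos.ne'
  obtain ⟨k, hk, hkx⟩ := qf_coercive hH0
  -- `|qf (R z) x| ≤ C * qf (H z) x` near `z₀`
  obtain ⟨C, hC0, hC⟩ : ∃ C : ℝ, 0 ≤ C ∧ ∀ x, |qf (R z₀) x| ≤ C * qf (H z₀) x := by
    obtain ⟨B, hB⟩ : ∃ B : ℝ, ∀ i j, ‖R z₀ i j‖ ≤ B := by
      refine ⟨∑ i, ∑ j, ‖R z₀ i j‖, fun i j => ?_⟩
      refine le_trans ?_ (Finset.single_le_sum (f := fun i => ∑ j, ‖R z₀ i j‖)
        (fun i _ => Finset.sum_nonneg fun j _ => norm_nonneg _) (Finset.mem_univ i))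
      exact Finset.single_le_sum (f := fun j => ‖R z₀ i j‖) (fun j _ => norm_nonneg _)
        (Finset.mem_univ j)
    refine ⟨(Fintype.card ι : ℝ) ^ 2 * |B| / k, by positivity, fun x => ?_⟩
    have h1 := abs_qf_le (fun i j => (hB i j).trans (le_abs_self B)) x
    have h2 := hkx x
    rw [div_mul_eq_mul_div, le_div_iff₀ hk]
    calc |qf (R z₀) x| * k ≤ ((Fintype.card ι : ℝ) ^ 2 * |B| * ‖x‖ ^ 2) * k := by gcongr
      _ = (Fintype.card ι : ℝ) ^ 2 * |B| * (k * ‖x‖ ^ 2) := by ring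
      _ ≤ (Fintype.card ι : ℝ) ^ 2 * |B| * qf (H z₀) x := by gcongr
  have c1 := qf_near (fun i j => (hH i j).continuousAt) hH0 (ε := 1 / 2) (by norm_num)
  have c3 := qf_near (fun i j => (hR i j).continuousAt) hH0 (ε := 1) one_pos
  have c6 : ∀ᶠ z in 𝓝 z₀, (w z).det ≠ 0 := (hw.det).continuousAt.eventually_ne hdet
  have c7 : ∀ᶠ z in 𝓝 z₀, V z₀ / 2 < V z :=
    (hVc.self_of_nhds).eventually (lt_mem_nhds (by linarith))
  have hall : ∀ᶠ z in 𝓝 z₀, ((∀ x, -(2 * (C + 1)) * qf (H z) x ≤ qf (R z) x) ∧ V z₀ / 2 ≤ V z ∧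
      MC 1 H z ∧ MC 1 R z ∧ MC 1 w z ∧ (w z).det ≠ 0) ∧ ContinuousAt V z ∧ (w z).PosDef ∧
        (H z).PosDef := by
    filter_upwards [c1, c3, c6, c7, hw.eventually (q := 1), hH.eventually (q := 1),
      hR.eventually (q := 1), hVc, hwp, hHp] with z a1 a3 a6 a7 b1 b2 b3 b4 b5 b6
    refine ⟨⟨fun x => ?_, a7.le, b2, b3, b1, a6⟩, b4, b5, b6⟩
    have h1 := abs_le.1 (a1 x)
    have h2 := abs_le.1 (a3 x)
    have h3 := abs_le.1 (hC x)
    nlinarith [h1.1, h1.2, h2.1, h3.1]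
  obtain ⟨r, hr, hball⟩ := Metric.eventually_nhds_iff_ball.1 hall
  refine ⟨r, hr, max 0 (2 / V z₀ * (2 * (C + 1) + 1)), fun t ht u hu hcs hsupp => ?_⟩
  have ht0 : 0 ≤ t := (le_max_left _ _).trans ht
  have ht1 : 2 / V z₀ * (2 * (C + 1) + 1) ≤ t := (le_max_right _ _).trans ht
  have ht2 : 2 * (C + 1) + 1 ≤ t * (V z₀ / 2) := by
    have := mul_le_mul_of_nonneg_right ht1 (by linarith : (0 : ℝ) ≤ V z₀ / 2)
    calc 2 * (C + 1) + 1 = 2 / V z₀ * (2 * (C + 1) + 1) * (V z₀ / 2) := by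
          field_simp
      _ ≤ _ := this
  have P := fun z (hz : z ∈ tsupport u) => hball z (hsupp hz)
  have J1 : Integrable fun z => qf (H z) (u z) := int_qf hu hcs fun z hz => (P z hz).1.2.2.1
  have J2 : Integrable fun z => qf (R z) (u z) := int_qf hu hcs fun z hz => (P z hz).1.2.2.2.1
  have J3 : Integrable fun z => V z * qf (H z) (u z) :=
    int_mul_qf hu hcs (fun z hz => (P z hz).1.2.2.1) fun z hz => (P z hz).2.1
  have N0 : 0 ≤ ∫ z, en (w z)⁻¹ (H z) (dV u z) := integral_nonneg fun z => by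
    by_cases hz : z ∈ tsupport u
    · exact en_nonneg (P z hz).2.2.1.inv.posSemidef (P z hz).2.2.2.posSemidef _
    · simp only [dV_zero hz, en_zero]; simp
  have N1 : 0 ≤ ∫ z, qf (H z) (u z) := integral_nonneg fun z => by
    by_cases hz : z ∈ tsupport u
    · exact qf_nonneg (P z hz).2.2.2.posSemidef _
    · simp only [image_eq_zero_of_notMem_tsupport hz, qf_zero]; simp
  have m1 : -(2 * (C + 1)) * (∫ z, qf (H z) (u z)) ≤ ∫ z, qf (R z) (u z) := by
    rw [← integral_const_mul]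
    refine integral_mono (J1.const_mul _) J2 fun z => ?_
    by_cases hz : z ∈ tsupport u
    · exact (P z hz).1.1 (u z)
    · simp only [image_eq_zero_of_notMem_tsupport hz, qf_zero]; simp
  have m2 : V z₀ / 2 * (∫ z, qf (H z) (u z)) ≤ ∫ z, V z * qf (H z) (u z) := by
    rw [← integral_const_mul]
    refine integral_mono (J1.const_mul _) J3 fun z => ?_
    by_cases hz : z ∈ tsupport u
    · exact mul_le_mul_of_nonneg_right (P z hz).1.2.1
        (qf_nonneg (P z hz).2.2.2.posSemidef _)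
    · simp only [image_eq_zero_of_notMem_tsupport hz, qf_zero]; simp
  generalize (∫ z, qf (H z) (u z)) = A at *
  generalize (∫ z, qf (R z) (u z)) = D at *
  generalize (∫ z, V z * qf (H z) (u z)) = F at *
  generalize (∫ z, en (w z)⁻¹ (H z) (dV u z)) = B at *
  have k1 := mul_le_mul_of_nonneg_left m1 ht0
  have k2 := mul_le_mul_of_nonneg_left m2 (sq_nonneg t)
  have k3 := mul_le_mul_of_nonneg_right ht2 (mul_nonneg ht0 N1)
  nlinarith [k1, k2, k3]

end loc

end Vale.Agent.P299.H721
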