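import Vale.Agent.P299.H598.IX.LocInst
import Vale.Agent.P299.H721.Loc

/-!
# P299, INDEX-LOWER: multiplication of sections by real functions; sections supported in a chart
-/

open scoped Manifold ContDiff ComplexOrder Topology Matrix ComplexConjugate
open MeasureTheory Set Filter
open Vale.Agent.P272.K Vale.Agent.P272.K.INT Vale.Agent.P299.IX

noncomputable section

namespace Vale.Agent.P299.H721

section
variable {n : ℕ} {Z : Type*} [TopologicalSpace Z] [ChartedSpace (Cm n) Z] {κ : Type*}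
  [Fintype κ] [DecidableEq κ] {B : Bun n Z κ}

/-- product with a real function -/
def smF (χ : Z → ℝ) (u : Chart n Z → Cm n → κ → ℂ) : Chart n Z → Cm n → κ → ℂ :=
  fun e z => ((χ (e.symm z) : ℝ) : ℂ) • u e z

lemma isSec_smF {χ : Z → ℝ} (hχ : SmoothFn (n := n) χ) {u : Chart n Z → Cm n → κ → ℂ}
    (hu : B.IsSec u) : B.IsSec (smF χ u) where
  smooth e x hx i := by
    have h1 := INT.ofReal_contDiffAt (hχ e x hx)
    exact h1.mul (hu.smooth e x hx i)
  change e e' x hx hx' := by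
    simp only [smF]
    rw [e.left_inv hx.2, e'.left_inv hx'.2, hu.change e e' x hx hx', Matrix.mulVec_smul]

/-- product of a section with a real smooth function -/
def smS (χ : Z → ℝ) (hχ : SmoothFn (n := n) χ) (s : B.S) : B.S :=
  Bun.mkS (smF χ s.f) (isSec_smF hχ s.isSec)

lemma smS_at {χ : Z → ℝ} (hχ : SmoothFn (n := n) χ) (s : B.S) {e : Chart n Z} {x : Z}
    (hx : At e x) : (smS χ hχ s).f e (e x) = ((χ x : ℝ) : ℂ) • s.f e (e x) := by
  unfold smS
  rw [Bun.mkS_f, Bun.cut_at hx, smF, e.left_inv hx.2]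

lemma smS_z {χ : Z → ℝ} (hχ : SmoothFn (n := n) χ) (s : B.S) {e : Chart n Z}
    (he : e ∈ atlas (Cm n) Z) {z : Cm n} (hz : z ∈ e.target) :
    (smS χ hχ s).f e z = ((χ (e.symm z) : ℝ) : ℂ) • s.f e z := by
  unfold smS
  rw [Bun.mkS_f, Bun.cut_eq he hz, smF]

lemma smS_add {χ : Z → ℝ} (hχ : SmoothFn (n := n) χ) (s t : B.S) :
    smS χ hχ (s + t) = smS χ hχ s + smS χ hχ t :=
  Bun.S.ext_f fun e x hx => by
    rw [Bun.S.add_f, Pi.add_apply, Pi.add_apply, smS_at hχ _ hx, smS_at hχ _ hx, smS_at hχ _ hx,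
      Bun.S.add_f, Pi.add_apply, Pi.add_apply, smul_add]

lemma smS_smul {χ : Z → ℝ} (hχ : SmoothFn (n := n) χ) (c : ℂ) (s : B.S) :
    smS χ hχ (c • s) = c • smS χ hχ s :=
  Bun.S.ext_f fun e x hx => by
    rw [Bun.S.smul_f, Pi.smul_apply, Pi.smul_apply, smS_at hχ _ hx, smS_at hχ _ hx,
      Bun.S.smul_f, Pi.smul_apply, Pi.smul_apply, smul_comm]

lemma smS_comm {χ ψ : Z → ℝ} (hχ : SmoothFn (n := n) χ) (hψ : SmoothFn (n := n) ψ) (s : B.S) :
    smS χ hχ (smS ψ hψ s) = smS ψ hψ (smS χ hχ s) :=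
  Bun.S.ext_f fun e x hx => by
    rw [smS_at hχ _ hx, smS_at hψ _ hx, smS_at hψ _ hx, smS_at hχ _ hx, smul_comm]

lemma den_zero_left' (v : Chart n Z → Cm n → κ → ℂ) (e : Chart n Z) (z : Cm n) :
    star (0 : κ → ℂ) ⬝ᵥ (B.H e z *ᵥ v e z) = 0 := by simp

lemma den_re (B : Bun n Z κ) (u : Chart n Z → Cm n → κ → ℂ) (e : Chart n Z) (z : Cm n) :
    (B.den u u e z).re = qf (B.H e z) (u e z) := rfl

omit [DecidableEq κ] in
lemma qf_smul (r : ℝ) (M : Matrix κ κ ℂ) (x : κ → ℂ) : qf M ((r : ℂ) • x) = r ^ 2 * qf M x := by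
  have : star ((r : ℂ) • x) ⬝ᵥ M *ᵥ ((r : ℂ) • x) = ((r ^ 2 : ℝ) : ℂ) * (star x ⬝ᵥ M *ᵥ x) := by
    rw [star_smul, smul_dotProduct, Matrix.mulVec_smul, dotProduct_smul]
    simp only [smul_eq_mul, Complex.star_def, Complex.conj_ofReal]
    push_cast; ring
  rw [qf, this, Complex.re_ofReal_mul, qf]

/-- a section vanishing off a closed subset of a chart domain, read in the chart -/
lemma suppS {e : Chart n Z} (he : e ∈ atlas (Cm n) Z) {K : Set Z} (s : B.S)
    (h0 : ∀ e' x, At e' x → x ∉ K → s.f e' (e' x) = 0) {z : Cm n} (hz : z ∉ e '' K) :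
    s.f e z = 0 := by
  by_cases h : z ∈ e.target
  · have h1 := h0 e (e.symm z) ⟨he, e.map_target h⟩ fun h' => hz ⟨_, h', e.right_inv h⟩
    rwa [e.right_inv h] at h1
  · exact s.off fun h' => h h'.2

variable [CompactSpace Z]

omit [ChartedSpace (Cm n) Z] in
lemma compact_image {e : Chart n Z} {K : Set Z} (hK : IsClosed K) (hKe : K ⊆ e.source) :
    IsCompact (e '' K) := hK.isCompact.image_of_continuousOn (e.continuousOn.mono hKe)

lemma tsuppS {e : Chart n Z} (he : e ∈ atlas (Cm n) Z) {K : Set Z} (hK : IsClosed K)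
    (hKe : K ⊆ e.source) (s : B.S) (h0 : ∀ e' x, At e' x → x ∉ K → s.f e' (e' x) = 0) :
    tsupport (s.f e) ⊆ e '' K :=
  closure_minimal (fun z hz => by
    by_contra h
    exact hz (suppS he s h0 h)) (compact_image hK hKe).isClosed

lemma hcsS {e : Chart n Z} (he : e ∈ atlas (Cm n) Z) {K : Set Z} (hK : IsClosed K)
    (hKe : K ⊆ e.source) (s : B.S) (h0 : ∀ e' x, At e' x → x ∉ K → s.f e' (e' x) = 0) :
    HasCompactSupport (s.f e) :=
  HasCompactSupport.intro (compact_image hK hKe) fun _ hz => suppS he s h0 hz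

lemma smoothS {e : Chart n Z} (he : e ∈ atlas (Cm n) Z) {K : Set Z} (hK : IsClosed K)
    (hKe : K ⊆ e.source) (s : B.S) (h0 : ∀ e' x, At e' x → x ∉ K → s.f e' (e' x) = 0) :
    ContDiff ℝ ∞ (s.f e) := by
  refine contDiff_iff_contDiffAt.2 fun z => ?_
  by_cases hz : z ∈ e.target
  · refine contDiffAt_pi.2 fun i => ?_
    have := s.smooth (e := e) (x := e.symm z) ⟨he, e.map_target hz⟩ i
    rwa [e.right_inv hz] at this
  · have hz' : z ∉ e '' K := by
      rintro ⟨x, hx, rfl⟩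
      exact hz (e.map_source (hKe hx))
    refine (contDiffAt_const (c := (0 : κ → ℂ))).congr_of_eventuallyEq ?_
    filter_upwards [(compact_image hK hKe).isClosed.isOpen_compl.mem_nhds hz'] with y hy
    exact suppS he s h0 hy

end

section
variable {n : ℕ} {Z : Type*} [TopologicalSpace Z] [ChartedSpace (Cm n) Z]
  [IsManifold 𝓘(ℂ, Cm n) ω Z] [T2Space Z] [CompactSpace Z]
  {κ : Type*} [Fintype κ] [DecidableEq κ] {B : Bun n Z κ}

/-- integrals of densities built from a section supported in a chart -/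
lemma intX_chart {e : Chart n Z} (he : e ∈ atlas (Cm n) Z) {K : Set Z} (hK : IsClosed K)
    (hKe : K ⊆ e.source) {D : Chart n Z → Cm n → ℝ} (hD : IsDensity D)
    (h0 : ∀ e' x, At e' x → x ∉ K → D e' (e' x) = 0) {F : Cm n → ℝ}
    (hF : ∀ z ∈ e.target, D e z = F z) (hF0 : ∀ z, z ∉ e.target → F z = 0) :
    intX D = ∫ z, F z := by
  rw [intX_of_support hD he hK hKe h0]
  rw [setIntegral_congr_fun e.open_target.measurableSet hF]
  exact setIntegral_eq_integral_of_forall_compl_eq_zero hF0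

end

end Vale.Agent.P299.H721
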