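import Vale.Agent.P299.H721.EnS

/-!
# P299, INDEX-LOWER: the zeros of the Kirwan field are good points
-/

open scoped Manifold ContDiff ComplexOrder Topology Matrix ComplexConjugate
open MeasureTheory Set Filter
open Vale.Agent.P272.K Vale.Agent.P272.K.INT Vale.Agent.P272.K.C2 Vale.Agent.P299.IX

noncomputable section

namespace Vale.Agent.P299.H721

section
variable {n : ℕ} {Z : Type*} [TopologicalSpace Z] [ChartedSpace (Cm n) Z]
  [IsManifold 𝓘(ℂ, Cm n) ω Z] {w : D.FormM n Z} {hw : IsKahler w}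

lemma FB_qf (k : ℕ) {e : Chart n Z} {x : Z} (hx : At e x) (a : FI n → ℂ) :
    qf ((FB k hw).H e (e x)) a = (w e (e x)).det.re ^ (k + 1) * qf (lam (w e (e x))⁻¹) a := by
  have hp := (hw.posDef e x hx).det_pos
  have h1 : (w e (e x)).det = (((w e (e x)).det.re : ℝ) : ℂ) :=
    Complex.ext (by simp) (by simpa using (Complex.pos_iff.1 hp).2.symm)
  have h2 : (FB k hw).H e (e x) =
      ((((w e (e x)).det.re ^ (k + 1) : ℝ) : ℂ)) • lam (w e (e x))⁻¹ := by
    rw [Complex.ofReal_pow, ← h1]; rfl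
  rw [h2, qf_smul_mat]

lemma FB_form (k : ℕ) {e : Chart n Z} {x : Z} (hx : At e x) (a b : FI n → ℂ) :
    (star a ⬝ᵥ (FB k hw).H e (e x) *ᵥ b).re =
      (w e (e x)).det.re ^ (k + 1) * (star a ⬝ᵥ lam (w e (e x))⁻¹ *ᵥ b).re := by
  have hp := (hw.posDef e x hx).det_pos
  have h1 : (w e (e x)).det = (((w e (e x)).det.re : ℝ) : ℂ) :=
    Complex.ext (by simp) (by simpa using (Complex.pos_iff.1 hp).2.symm)
  have h2 : (FB k hw).H e (e x) =
      ((((w e (e x)).det.re ^ (k + 1) : ℝ) : ℂ)) • lam (w e (e x))⁻¹ := by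
    rw [Complex.ofReal_pow, ← h1]; rfl
  rw [h2, Matrix.smul_mulVec, dotProduct_smul, smul_eq_mul, Complex.re_ofReal_mul]

/-- the value of the first order part at a zero of the Kirwan field -/
def badR {o : Type*} [DecidableEq o] (k : o → ℕ) (Bm : Matrix (Fin n) (Fin n) ℂ) :
    Matrix (FI n × o) (FI n × o) ℂ :=
  Matrix.blockDiagonal fun S =>
    (((k S : ℂ) - 1) * (Complex.I * Bm.trace)) • (1 : Matrix (FI n) (FI n) ℂ) +
      Complex.I • dlam Bmᵀ

theorem good_of_pos {o : Type*} [Fintype o] [DecidableEq o] {k : o → ℕ} (hk : ∀ S, 1 ≤ k S)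
    {R : Chart n Z → Cm n → Matrix (FI n × o) (FI n × o) ℂ} {V : Z → ℝ}
    {e : Chart n Z} {x : Z} (hx : At e x) {v : Cm n → Cm n} (hv : ContDiffAt ℝ 1 v (e x))
    (hV : ∀ᶠ z in 𝓝 (e x), qf (w e z)ᵀ (v z) ≤ V (e.symm z))
    {Bm S : Matrix (Fin n) (Fin n) ℂ} (hBm : ∀ p b, Bm p b = dz b (fun y => v y p) (e x))
    (hmom : 0 < (Complex.I * Bm.trace).re) (him : (Complex.I * Bm.trace).im = 0)
    (hS : ∀ a, qf (w e (e x))ᵀ (S *ᵥ a) ≤ qf (w e (e x))ᵀ a)
    (hP : ∀ a : FI n → ℂ, (Complex.I * Bm.trace).re * qf (lam (w e (e x))⁻¹) a ≤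
      (star a ⬝ᵥ (lam (w e (e x))⁻¹ *ᵥ (Complex.I • dlam Bmᵀ *ᵥ a))).re +
        (S * Bm).trace.re * qf (lam (w e (e x))⁻¹) a)
    (hR : R e (e x) = badR k Bm) :
    Good w (Bun.sum fun S => FB (k S) hw) (fun e z => (Bun.sum fun S => FB (k S) hw).H e z * R e z)
      V x := by
  set mom := (Complex.I * Bm.trace).re with hmomdef
  have hI : Complex.I * Bm.trace = ((mom : ℝ) : ℂ) := Complex.ext (by simp [hmomdef])
    (by simpa using him)
  refine Or.inr ⟨e, hx, v, S, mom, hmom, hv, hV, hS, fun a => ?_⟩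
  have htr : (∑ b, dz b (fun y => (S *ᵥ v y) b) (e x)).re = (S * Bm).trace.re := by
    congr 1
    simp only [Matrix.trace, Matrix.diag_apply, Matrix.mul_apply]
    refine Finset.sum_congr rfl fun b _ => ?_
    have hd : ∀ p, DifferentiableAt ℝ (fun y => v y p) (e x) := fun p =>
      ((contDiffAt_pi.1 hv p).differentiableAt one_ne_zero)
    have h1 : (fun y => (S *ᵥ v y) b) = fun y => ∑ p, S b p * v y p := by
      funext y; simp [Matrix.mulVec, dotProduct]
    rw [h1, dz_sum b _ fun p _ => (hd p).const_mul (S b p)]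
    refine Finset.sum_congr rfl fun p _ => ?_
    rw [dz_const_mul b (S b p) (hd p), hBm]
  rw [htr]
  have hH : (Bun.sum fun S => FB (k S) hw).H e (e x) =
      Matrix.blockDiagonal fun S => (FB (k S) hw).H e (e x) := rfl
  simp only [hR]
  rw [qf_mul, hH, qf_blockDiagonal, Bun.blockDiagonal_form, Complex.re_sum, Finset.mul_sum,
    Finset.mul_sum, ← Finset.sum_add_distrib]
  refine Finset.sum_le_sum fun T _ => ?_
  have h1 : (fun J => (badR k Bm *ᵥ a) (J, T)) =
      ((((k T : ℝ) - 1) * mom : ℝ) : ℂ) • (fun J => a (J, T)) +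
        Complex.I • dlam Bmᵀ *ᵥ (fun J => a (J, T)) := by
    funext J
    rw [badR, Bun.blockDiagonal_mulVec, Matrix.add_mulVec, Matrix.smul_mulVec, Matrix.smul_mulVec,
      Matrix.one_mulVec, hI]
    push_cast
    rfl
  rw [h1, FB_form _ hx, FB_qf _ hx, Matrix.mulVec_add, dotProduct_add, Complex.add_re,
    Matrix.mulVec_smul, dotProduct_smul, smul_eq_mul, Complex.re_ofReal_mul]
  have h2 := hP fun J => a (J, T)
  have h3 : 0 < (w e (e x)).det.re :=
    (Complex.pos_iff.1 (hw.posDef e x hx).det_pos).1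
  have h4 : 0 ≤ qf (lam (w e (e x))⁻¹) fun J => a (J, T) :=
    qf_nonneg (lam_posDef (hw.posDef e x hx).inv).posSemidef _
  have h5 : (0 : ℝ) ≤ (k T : ℝ) - 1 := by
    have := hk T
    have : (1 : ℝ) ≤ (k T : ℝ) := by exact_mod_cast this
    linarith
  have h6 : 0 ≤ ((k T : ℝ) - 1) * mom * qf (lam (w e (e x))⁻¹) fun J => a (J, T) := by positivity
  have h7 : 0 < (w e (e x)).det.re ^ (k T + 1) := by positivity
  have h8 : (star (fun J => a (J, T)) ⬝ᵥ (lam (w e (e x))⁻¹ *ᵥ fun J => a (J, T))).re =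
      qf (lam (w e (e x))⁻¹) fun J => a (J, T) := rfl
  rw [h8]
  have h9 : mom * qf (lam (w e (e x))⁻¹) (fun J => a (J, T)) ≤
      ((k T : ℝ) - 1) * mom * qf (lam (w e (e x))⁻¹) (fun J => a (J, T)) +
      (star (fun J => a (J, T)) ⬝ᵥ (lam (w e (e x))⁻¹ *ᵥ
        (Complex.I • dlam Bmᵀ *ᵥ fun J => a (J, T)))).re +
        (S * Bm).trace.re * qf (lam (w e (e x))⁻¹) (fun J => a (J, T)) := by linarith
  have h10 := mul_le_mul_of_nonneg_left h9 h7.le
  nlinarith [h10]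

end

end Vale.Agent.P299.H721
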