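import Vale.Agent.P299.H721.Bd
import Vale.Agent.P299.H582.Kir.Main

/-!
# P299, INDEX-LOWER: the potential `∑ |s_j|² + |v|²`
-/

open scoped Manifold ContDiff ComplexOrder Topology Matrix ComplexConjugate
open MeasureTheory Set Filter
open Vale.Agent.P272.K Vale.Agent.P272.K.INT Vale.Agent.P272.K.C2 Vale.Agent.P299.IX
open Vale.Agent.P299.H582 Vale.Agent.P299.H800.Kir

noncomputable section

namespace Vale.Agent.P299.H721

section
variable {r n : ℕ} {Z : Type} [TopologicalSpace Z] [ChartedSpace (Cm n) Z]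
  [IsManifold 𝓘(ℂ, Cm n) ω Z] {w : D.FormM n Z} {T : D.TorusAct r n Z w} {N c : ℕ}
  {s : Fin N → Chart n Z → Cm n → ℂ} {f : Fin r → Z → ℝ}

/-- the potential in a chart -/
def pot (w : D.FormM n Z) (c : ℕ) (s : Fin N → Chart n Z → Cm n → ℂ) (v : D.VField n Z)
    (e : Chart n Z) (z : Cm n) : ℝ :=
  ∑ j, ‖s j e z‖ ^ 2 * (w e z).det.re ^ c + qf (w e z)ᵀ (v e z)

lemma kv_change (T : D.TorusAct r n Z w) (f : Fin r → Z → ℝ) {e e' : Chart n Z} {x : Z}
    (hx : At e x) (hx' : At e' x) :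
    kv T f e' (e' x) = (jacM e e' x).mulVec (kv T f e (e x)) := by
  unfold kv
  rw [Matrix.mulVec_sum]
  refine Finset.sum_congr rfl fun a _ => ?_
  rw [(vf_isHolVF T (Pi.single a 1)).change e e' x hx hx', e.left_inv hx.2, e'.left_inv hx'.2,
    Matrix.mulVec_smul]

lemma pot_change (hw : IsHermitian w) (hs : ∀ j, Wsec T c 0 (s j)) {e e' : Chart n Z} {x : Z}
    (hx : At e x) (hx' : At e' x) : pot w c s (kv T f) e (e x) = pot w c s (kv T f) e' (e' x) := by
  unfold pot
  have hd : (w e (e x)).det.re = ‖(jacM e e' x).det‖ ^ 2 * (w e' (e' x)).det.re := by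
    rw [metric_det hw hx hx', Complex.re_ofReal_mul]
  have hq : qf (w e (e x))ᵀ (kv T f e (e x)) = qf (w e' (e' x))ᵀ (kv T f e' (e' x)) := by
    rw [kv_change T f hx hx', qf_mulVec, hw.change e e' x hx hx', Matrix.transpose_mul,
      Matrix.transpose_mul, Matrix.transpose_transpose]
    congr 1
    simp only [Matrix.mul_assoc]
    rfl
  rw [hq]
  congr 1
  refine Finset.sum_congr rfl fun j _ => ?_
  rw [← (hs j).change e e' x hx hx', hd, norm_mul, norm_pow]
  ring

lemma kv_continuousAt (hf : ∀ a, SmoothFn (n := n) (f a)) {e : Chart n Z} {x : Z} (hx : At e x) :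
    ContinuousAt (kv T f e) (e x) := by
  unfold kv
  refine tendsto_finsetSum _ fun a _ => ?_
  exact ((hf a e x hx).continuousAt).smul ((vf_isHolVF T (Pi.single a 1)).holo e x hx).continuousAt

lemma pot_continuousAt (hw : IsHermitian w) (hs : ∀ j, Wsec T c 0 (s j))
    (hf : ∀ a, SmoothFn (n := n) (f a)) {e : Chart n Z} {x : Z} (hx : At e x) :
    ContinuousAt (pot w c s (kv T f) e) (e x) := by
  have hwc : ∀ i j, ContinuousAt (fun z => w e z i j) (e x) := fun i j =>
    (hw.smooth e x hx i j).continuousAt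
  have hdet : ContinuousAt (fun z => (w e z).det.re) (e x) :=
    Complex.continuous_re.continuousAt.comp
      (MC.det fun i j => hw.smooth e x hx i j).continuousAt
  unfold pot
  refine ContinuousAt.add ?_ (continuousAt_qf (fun i j => hwc j i) fun i =>
    continuousAt_pi.1 (kv_continuousAt hf hx) i)
  refine tendsto_finsetSum _ fun j _ => ?_
  exact ((((hs j).smooth e x hx).continuousAt.norm).pow 2).mul (hdet.pow c)

/-- the potential as a function on `Z` -/
def potZ (w : D.FormM n Z) (c : ℕ) (s : Fin N → Chart n Z → Cm n → ℂ) (v : D.VField n Z)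
    (x : Z) : ℝ := pot w c s v (chartAt (Cm n) x) (chartAt (Cm n) x x)

lemma potZ_eq (hw : IsHermitian w) (hs : ∀ j, Wsec T c 0 (s j)) {e : Chart n Z} {x : Z}
    (hx : At e x) : potZ w c s (kv T f) x = pot w c s (kv T f) e (e x) :=
  pot_change hw hs ⟨chart_mem_atlas _ _, mem_chart_source _ _⟩ hx

lemma potZ_continuous (hw : IsHermitian w) (hs : ∀ j, Wsec T c 0 (s j))
    (hf : ∀ a, SmoothFn (n := n) (f a)) : Continuous (potZ w c s (kv T f)) := by
  refine continuous_iff_continuousAt.2 fun x => ?_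
  set e : Chart n Z := chartAt (Cm n) x with he
  have hx : At e x := ⟨chart_mem_atlas _ _, mem_chart_source _ _⟩
  have h1 : ContinuousAt (fun y => pot w c s (kv T f) e (e y)) x :=
    ContinuousAt.comp (f := e) (pot_continuousAt hw hs hf hx) (e.continuousAt hx.2)
  refine h1.congr ?_
  filter_upwards [e.open_source.mem_nhds hx.2] with y hy
  exact (potZ_eq hw hs ⟨hx.1, hy⟩).symm

omit [IsManifold 𝓘(ℂ, Cm n) ω Z] in
lemma pot_ge (hw : IsHermitian w) {e : Chart n Z} {x : Z} (hx : At e x) (v : D.VField n Z) :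
    qf (w e (e x))ᵀ (v e (e x)) ≤ pot w c s v e (e x) := by
  have h0 : 0 < (w e (e x)).det.re := (Complex.pos_iff.1 (hw.posDef e x hx).det_pos).1
  unfold pot
  have : 0 ≤ ∑ j, ‖s j e (e x)‖ ^ 2 * (w e (e x)).det.re ^ c :=
    Finset.sum_nonneg fun j _ => by positivity
  linarith

omit [IsManifold 𝓘(ℂ, Cm n) ω Z] in
lemma pot_pos_of_s (hw : IsHermitian w) {e : Chart n Z} {x : Z} (hx : At e x) (v : D.VField n Z)
    (h : ∃ j, s j e (e x) ≠ 0) : 0 < pot w c s v e (e x) := by
  have h0 : 0 < (w e (e x)).det.re := (Complex.pos_iff.1 (hw.posDef e x hx).det_pos).1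
  obtain ⟨j, hj⟩ := h
  have h1 : 0 < ∑ j, ‖s j e (e x)‖ ^ 2 * (w e (e x)).det.re ^ c := by
    refine Finset.sum_pos' (fun j _ => by positivity) ⟨j, Finset.mem_univ _, ?_⟩
    have := norm_pos_iff.2 hj
    positivity
  have h2 : 0 ≤ qf (w e (e x))ᵀ (v e (e x)) := qf_nonneg (hw.posDef e x hx).transpose.posSemidef _
  unfold pot
  linarith

omit [IsManifold 𝓘(ℂ, Cm n) ω Z] in
lemma pot_pos_of_v (hw : IsHermitian w) {e : Chart n Z} {x : Z} (hx : At e x) (v : D.VField n Z)
    (h : v e (e x) ≠ 0) : 0 < pot w c s v e (e x) := by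
  have h0 : 0 < (w e (e x)).det.re := (Complex.pos_iff.1 (hw.posDef e x hx).det_pos).1
  have h1 : 0 ≤ ∑ j, ‖s j e (e x)‖ ^ 2 * (w e (e x)).det.re ^ c :=
    Finset.sum_nonneg fun j _ => by positivity
  have h2 : 0 < qf (w e (e x))ᵀ (v e (e x)) := by
    have := (hw.posDef e x hx).transpose.dotProduct_mulVec_pos h
    exact (Complex.pos_iff.1 this).1
  unfold pot
  linarith

end

end Vale.Agent.P299.H721
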