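import Vale.Agent.P299.H721.TotD
import Vale.Agent.P299.H721.Pot
import Vale.Agent.P299.H721.GoodP
import Vale.Agent.P299.H996.IX.Pos
import Vale.Agent.P299.H908.Lie.Lie
import Vale.Agent.P299.H582.Kir.Bad
import Vale.Agent.P299.H598.IX.OpS

/-!
# P299, INDEX-LOWER: the lower bound for the deformed operator on invariant sections
-/

open scoped Manifold ContDiff ComplexOrder Topology Matrix ComplexConjugate Kronecker
open MeasureTheory Set Filter
open Vale.Agent.P272.K Vale.Agent.P272.K.INT Vale.Agent.P272.K.C2 Vale.Agent.P299.IX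
open Vale.Agent.P299.IX.Kz Vale.Agent.P299.IX.Fock Vale.Agent.P299.IX.Cl
open Vale.Agent.P299.H582 Vale.Agent.P299.H800.Kir Vale.Agent.P299.H908.Lie

noncomputable section

namespace Vale.Agent.P299.H721

section
variable {r n N k0 : ℕ} {Z : Type} [TopologicalSpace Z] [ChartedSpace (Cm n) Z]
  [IsManifold 𝓘(ℂ, Cm n) ω Z] {w : D.FormM n Z} {hw : IsKahler w} {T : D.TorusAct r n Z w}
  {f : Fin r → Z → ℝ} {s : Fin N → Chart n Z → Cm n → ℂ}

/-- the generating fields of the torus action -/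
abbrev XF (T : D.TorusAct r n Z w) : Fin r → D.VField n Z := fun a => vf T (Pi.single a 1)

omit [IsManifold 𝓘(ℂ, Cm n) ω Z] in
lemma ksec (hs : ∀ j, Wsec T k0 0 (s j)) (j : Fin N) : KSec k0 (s j) :=
  ⟨(hs j).smooth, (hs j).change⟩

lemma sfield (T : D.TorusAct r n Z w) (a : Fin r) : SField (XF T a) where
  smooth _ _ hx i := contDiffAt_pi.1 (vf_smooth T hx _) i
  change _ _ _ hx hx' := (vf_isHolVF T _).change _ _ _ hx hx'

/-- the deformation term -/
def KT (hw : IsKahler w) (hs : ∀ j, Wsec T k0 0 (s j)) (hf : ∀ a, SmoothFn (n := n) (f a)) :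
    (Btot hw k0 N).S →ₗ[ℂ] (Btot hw k0 N).S :=
  (BZ hw (ksec hs) (fun a e x hx => hf a e x hx) (sfield T)).op

lemma KT_at (hs : ∀ j, Wsec T k0 0 (s j)) (hf : ∀ a, SmoothFn (n := n) (f a))
    (u : (Btot hw k0 N).S) {e : Chart n Z} {x : Z} (hx : At e x) :
    (KT hw hs hf u).f e (e x) = BopX k0 w s f (XF T) e (e x) *ᵥ u.f e (e x) :=
  ZOp.op_at _ u hx

lemma KT_near (hs : ∀ j, Wsec T k0 0 (s j)) (hf : ∀ a, SmoothFn (n := n) (f a))
    (u : (Btot hw k0 N).S) {e : Chart n Z} {x : Z} (hx : At e x) :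
    (KT hw hs hf u).f e =ᶠ[𝓝 (e x)] fun y => Bop k0 (w e) (fun j => s j e)
      (fun a y => f a (e.symm y)) (fun a => XF T a e) y *ᵥ u.f e y := by
  filter_upwards [e.open_target.mem_nhds (e.map_source hx.2)] with y hy
  have h := KT_at (hw := hw) hs hf u (e := e) (x := e.symm y) ⟨hx.1, e.map_target hy⟩
  rwa [e.right_inv hy] at h

omit [IsManifold 𝓘(ℂ, Cm n) ω Z] in
lemma vtot_eq_kv (e : Chart n Z) (z : Cm n) :
    vtot (fun a y => f a (e.symm y)) (fun a => XF T a e) z = kv T f e z := rfl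

omit [IsManifold 𝓘(ℂ, Cm n) ω Z] in
lemma VX_eq_pot (e : Chart n Z) (z : Cm n) :
    VX k0 w s f (XF T) e z = pot w k0 s (kv T f) e z := by
  unfold VX pot
  rw [Finset.sum_mul]
  congr 1
  rw [vtot_eq_kv, qf, flatV]
  congr 1
  rw [Matrix.dotProduct_mulVec, dotProduct_comm, Matrix.mulVec_transpose]

lemma KT_sq (hs : ∀ j, Wsec T k0 0 (s j)) (hf : ∀ a, SmoothFn (n := n) (f a))
    (u : (Btot hw k0 N).S) (e : Chart n Z) (x : Z) (hx : At e x) :
    (KT hw hs hf (KT hw hs hf u)).f e (e x) =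
      ((potZ w k0 s (kv T f) x : ℝ) : ℂ) • u.f e (e x) := by
  rw [KT_at hs hf _ hx, KT_at hs hf _ hx, Matrix.mulVec_mulVec, BopX_sq hw s f (XF T) hx,
    VX_eq_pot, potZ_eq hw.toIsHermitian hs hx, Matrix.smul_mulVec, Matrix.one_mulVec]

omit [IsManifold 𝓘(ℂ, Cm n) ω Z] in
lemma DDt_congr {W : Cm n → Matrix (Fin n) (Fin n) ℂ} {u v : Cm n → FI n × FI N → ℂ} {z : Cm n}
    (h : u =ᶠ[𝓝 z] v) : Kz.DDt k0 W u z = Kz.DDt k0 W v z := by
  rw [DDt_eq, DDt_eq, h.self_of_nhds]
  simp only [DV_congr h, DVb_congr h]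

/-- the section `u` of the total bundle is invariant under the torus -/
def TInv (T : D.TorusAct r n Z w) (k0 : ℕ) (u : Chart n Z → Cm n → FI n × FI N → ℂ) : Prop :=
  ∀ (S : FI N) (t : Fin r → ℝ) (e e' : Chart n Z) (x : Z), At e x → At e' (T.a t x) →
    (D.jacF (T.a t) e e' x).det ^ (1 + S.card * k0) • Bun.blk u S e (e x) =
      lam (D.jacF (T.a t) e e' x)ᵀ *ᵥ Bun.blk u S e' (e' (T.a t x))

/-- the first order part of the square of the deformed operator on invariant sections -/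
def RX (k0 : ℕ) (w : D.FormM n Z) (s : Fin N → Chart n Z → Cm n → ℂ) (f : Fin r → Z → ℝ)
    (T : D.TorusAct r n Z w) (e : Chart n Z) (z : Cm n) :
    Matrix (FI n × FI N) (FI n × FI N) ℂ :=
  Rop k0 (w e) (fun j => s j e) (fun a y => f a (e.symm y)) (fun a => XF T a e) z

lemma vf_hol {e : Chart n Z} {x : Z} (hx : At e x) (a : Fin r) (b : Fin n) :
    DVb b (XF T a e) (e x) = 0 := by
  funext p
  have h := (vf_isHolVF T (Pi.single a 1)).holo e x hx
  have h2 : DifferentiableAt ℂ (fun y => XF T a e y p) (e x) :=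
    differentiableAt_pi.1 h.differentiableAt p
  exact INT.dzb_of_holo h2 b

variable [T2Space Z] [CompactSpace Z]

lemma KT_symm (hs : ∀ j, Wsec T k0 0 (s j)) (hf : ∀ a, SmoothFn (n := n) (f a))
    (u v : (Btot hw k0 N).S) : inner ℂ (KT hw hs hf u) v = inner ℂ u (KT hw hs hf v) := by
  rw [Bun.inner_eq, Bun.inner_eq]
  refine IX.intC_congr fun e x hx => ?_
  unfold Bun.den
  rw [KT_at hs hf _ hx, KT_at hs hf _ hx, Matrix.star_mulVec, ← Matrix.dotProduct_mulVec,
    Matrix.mulVec_mulVec, Matrix.mulVec_mulVec, BopX_adj hw s f (XF T) hx]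

omit [T2Space Z] [CompactSpace Z] in
/-- the anticommutator on invariant sections -/
theorem anti_inv {Dt : (Btot hw k0 N).S →ₗ[ℂ] (Btot hw k0 N).S} (hD : TotOp Dt)
    (hs : ∀ j, Wsec T k0 0 (s j)) (hf : ∀ a, SmoothFn (n := n) (f a))
    {u : (Btot hw k0 N).S} (hu : TInv T k0 u.f) (e : Chart n Z) (x : Z) (hx : At e x) :
    (Dt (KT hw hs hf u) + KT hw hs hf (Dt u)).f e (e x) =
      RX k0 w s f T e (e x) *ᵥ u.f e (e x) := by
  have h1 : (Dt (KT hw hs hf u) + KT hw hs hf (Dt u)).f e (e x) =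
      (Dt (KT hw hs hf u)).f e (e x) + (KT hw hs hf (Dt u)).f e (e x) := rfl
  rw [h1, KT_at hs hf _ hx, hD _ e x hx, hD u e x hx, DDt_congr (KT_near hs hf u hx)]
  refine anti_total (G.kat w hw hx) (fun j => ((hs j).smooth e x hx).of_le (by norm_cast))
    (fun a i => ((sfield T a).smooth e x hx i).of_le (by norm_cast)) (fun a b => vf_hol hx a b)
    (fun a => (hf a e x hx).of_le (by norm_cast)) (fun i => (u.smooth hx i).of_le (by norm_cast))
    fun a S => ?_
  have h2 := lie_inv T (isSec_blk' u S) (fun t e e' x h h' => hu S t e e' x h h')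
    (Pi.single a 1) hx
  rw [sub_eq_zero] at h2
  have h3 : (dX (XF T a e) (e x)) = (Bv (vf T (Pi.single a 1) e) (e x))ᵀ := rfl
  rw [h3, Matrix.trace_transpose]
  refine Eq.trans ?_ h2
  congr 1
  unfold lie
  rw [← Finset.sum_add_distrib]
  rfl

omit [T2Space Z] [CompactSpace Z] in
/-- every point is good -/
theorem good_all (hs : ∀ j, Wsec T k0 0 (s j)) (hf : ∀ a, SmoothFn (n := n) (f a))
    (hkir : ∀ e x, At e x → (∃ j, s j e (e x) ≠ 0) ∨ kv T f e (e x) ≠ 0 ∨
      ((∀ j, ∀ᶠ z in 𝓝 (e x), s j e z = 0) ∧ kv T f e (e x) = 0 ∧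
        (∀ a, fderiv ℝ (fun z => f a (e.symm z)) (e x) = 0) ∧
        0 < (Complex.I * ∑ l, dz l (fun y => vf T (fun a => f a x) e y l) (e x)).re)) (x : Z) :
    Good w (Btot hw k0 N) (fun e z => (Btot hw k0 N).H e z * RX k0 w s f T e z)
      (potZ w k0 s (kv T f)) x := by
  set e : Chart n Z := chartAt (Cm n) x with he
  have hx : At e x := ⟨chart_mem_atlas _ _, mem_chart_source _ _⟩
  have hpz := potZ_eq (f := f) hw.toIsHermitian hs hx
  rcases hkir e x hx with h | h | ⟨h1, h2, h3, h4⟩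
  · left
    rw [hpz]
    exact pot_pos_of_s hw.toIsHermitian hx _ h
  · left
    rw [hpz]
    exact pot_pos_of_v hw.toIsHermitian hx _ h
  · set Bm : Matrix (Fin n) (Fin n) ℂ := Bv (kv T f e) (e x) with hBm
    have hskew : Bmᵀ * w e (e x) + w e (e x) * Bm.map star = 0 := by
      ext i j
      have := bad_matrix T hw.toIsHermitian hf hx h2 h3 i j
      simpa [Matrix.mul_apply, hBm, Bv] using this
    obtain ⟨him, S, hS, hP⟩ := Vale.Agent.P299.H996.IX.pos_point (w e (e x)) Bm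
      (hw.posDef e x hx) hskew
    have htr : Bm.trace = ∑ l, dz l (fun y => vf T (fun a => f a x) e y l) (e x) := by
      rw [Matrix.trace]
      exact Finset.sum_congr rfl fun l _ => dz_kv T hf hx h3 l l
    have hkvs := kv_smooth T hf hx
    have hXs : ∀ a, VC 1 (XF T a e) (e x) := fun a i =>
      ((sfield T a).smooth e x hx i).of_le (by norm_cast)
    have hfs : ∀ a, ContDiffAt ℝ 1 (fun y => f a (e.symm y)) (e x) := fun a =>
      (hf a e x hx).of_le (by norm_cast)
    have hkil : ∀ a, Kil (w e) (XF T a e) (e x) := fun a => by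
      have h := lie_met_kahler T hw (Pi.single a 1) hx
      unfold Kil
      rw [← Finset.sum_add_distrib]
      exact h
    have h2' : vtot (fun a y => f a (e.symm y)) (fun a => XF T a e) (e x) = 0 := h2
    have hR : RX k0 w s f T e (e x) = badR (fun S : FI N => 1 + S.card * k0) Bm := by
      unfold RX
      rw [Rop_bad (G.kat w hw hx) h1 hXs hkil h2' h3 fun a => (hfs a).differentiableAt one_ne_zero,
        ← dX_vtot hXs h3 hfs]
      have h5 : dX (vtot (fun a y => f a (e.symm y)) (fun a => XF T a e)) (e x) = Bmᵀ := rfl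
      rw [h5, Matrix.trace_transpose, badR]
      congr 1
      funext S
      rw [smul_add, smul_smul]
      congr 2
      push_cast
      ring
    have hmom : 0 < (Complex.I * Bm.trace).re := by rw [htr]; exact h4
    refine good_of_pos (hw := hw) (k := fun S : FI N => 1 + S.card * k0) (fun S => by omega) hx
      (Bm := Bm) (hkvs.of_le (by norm_cast)) ?_ (fun p b => rfl) hmom him hS hP hR
    filter_upwards [e.open_target.mem_nhds (e.map_source hx.2)] with z hz
    have hz' : At e (e.symm z) := ⟨hx.1, e.map_target hz⟩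
    rw [potZ_eq hw.toIsHermitian hs hz']
    have := pot_ge (s := s) (c := k0) hw.toIsHermitian hz' (kv T f)
    rwa [e.right_inv hz] at this ⊢

/-- **INDEX-LOWER.** The deformed operator `D' + δ + t B` is bounded from below on the invariant
sections of the total bundle. -/
theorem index_lower (hric : D.RicNonneg w) (hs : ∀ j, Wsec T k0 0 (s j))
    (hf : ∀ a, SmoothFn (n := n) (f a))
    (hkir : ∀ e x, At e x → (∃ j, s j e (e x) ≠ 0) ∨ kv T f e (e x) ≠ 0 ∨
      ((∀ j, ∀ᶠ z in 𝓝 (e x), s j e z = 0) ∧ kv T f e (e x) = 0 ∧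
        (∀ a, fderiv ℝ (fun z => f a (e.symm z)) (e x) = 0) ∧
        0 < (Complex.I * ∑ l, dz l (fun y => vf T (fun a => f a x) e y l) (e x)).re))
    {Dt : (Btot hw k0 N).S →ₗ[ℂ] (Btot hw k0 N).S} (hD : TotOp Dt) :
    ∃ c > 0, ∃ t₀ > 0, ∀ t : ℝ, t₀ ≤ t → ∀ u : (Btot hw k0 N).S, TInv T k0 u.f →
      c * t * ‖u‖ ^ 2 ≤ ‖Dt u + (t : ℂ) • KT hw hs hf u‖ ^ 2 := by
  obtain ⟨c, hc, t₀, ht₀, h⟩ := lower_of (B := Btot hw k0 N) (R := RX k0 w s f T)
    (V := potZ w k0 s (kv T f)) hw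
    (fun e x hx => (MC_Rop (G.kat w hw hx) (fun j => (hs j).smooth e x hx)
      (fun a => hf a e x hx) (fun a => (sfield T a).smooth e x hx)).mono (by norm_cast))
    (potZ_continuous hw.toIsHermitian hs hf) (good_all hs hf hkir) Dt (KT hw hs hf)
    isDensity_en (tot_bkn hric hD) (tot_comm_bounded hD) (tot_comm_comm hD) (tot_symm hD)
    (KT_symm hs hf) (fun u e x hx => KT_sq hs hf u e x hx)
  exact ⟨c, hc, t₀, ht₀, fun t ht u hu => h t ht u (anti_inv hD hs hf hu)⟩

end

end Vale.Agent.P299.H721
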