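import Vale.Agent.P299.H721.Glob

/-!
# P299, INDEX-LOWER: the lower bound for `D + t K`, abstract form
-/

open scoped Manifold ContDiff ComplexOrder Topology Matrix ComplexConjugate
open MeasureTheory Set Filter
open Vale.Agent.P272.K Vale.Agent.P272.K.INT Vale.Agent.P272.K.C2 Vale.Agent.P299.IX

noncomputable section

namespace Vale.Agent.P299.H721

section
variable {n : ℕ} {Z : Type*} [TopologicalSpace Z] [ChartedSpace (Cm n) Z]
  [IsManifold 𝓘(ℂ, Cm n) ω Z] [T2Space Z] [CompactSpace Z]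
  {κ : Type*} [Fintype κ] [DecidableEq κ]
  {w : Chart n Z → Cm n → Matrix (Fin n) (Fin n) ℂ} {B : Bun n Z κ}
  {R : Chart n Z → Cm n → Matrix κ κ ℂ} {V : Z → ℝ}

omit [IsManifold 𝓘(ℂ, Cm n) ω Z] [T2Space Z] [CompactSpace Z] [DecidableEq κ] in
lemma qf_mul (H M : Matrix κ κ ℂ) (x : κ → ℂ) : qf (H * M) x = (star x ⬝ᵥ H *ᵥ (M *ᵥ x)).re := by
  rw [qf, Matrix.mulVec_mulVec]

omit [IsManifold 𝓘(ℂ, Cm n) ω Z] [T2Space Z] [CompactSpace Z] in
lemma isDensity_HR {s q : B.S}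
    (h : ∀ e x, At e x → q.f e (e x) = R e (e x) *ᵥ s.f e (e x)) :
    IsDensity fun e z => qf (B.H e z * R e z) (s.f e z) := by
  have h' : ∀ e x, At e x → qf (B.H e (e x) * R e (e x)) (s.f e (e x)) =
      (B.den s.f q.f e (e x)).re := fun e x hx => by
    rw [qf_mul, ← h e x hx]; rfl
  have hd := Bun.isDensity_re s.isSec q.isSec
  refine ⟨fun e x hx => ?_, fun e e' x hx hx' => ?_⟩
  · refine (hd.cont e x hx).congr ?_
    filter_upwards [e.open_target.mem_nhds (e.map_source hx.2)] with z hz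
    have := h' e (e.symm z) ⟨hx.1, e.map_target hz⟩
    rw [e.right_inv hz] at this
    exact this.symm
  · show qf (B.H e (e x) * R e (e x)) (s.f e (e x)) =
      qf (B.H e' (e' x) * R e' (e' x)) (s.f e' (e' x)) * _
    rw [h' e x hx, h' e' x hx']
    exact hd.change e e' x hx hx'

/-- **Lower bound for `D + t K`** on the sections `s` with `(D K + K D) s = R s`. -/
theorem lower_of (hw : IsKahler w) (hR : ∀ e x, At e x → MC 1 (R e) (e x))
    (hV : Continuous V) (hgood : ∀ x, Good w B (fun e z => B.H e z * R e z) V x)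
    (D K : B.S →ₗ[ℂ] B.S)
    (hden : ∀ s : B.S, IsDensity fun e z => en (w e z)⁻¹ (B.H e z) (dV (s.f e) z))
    (hbkn : ∀ s : B.S, intX (fun e z => en (w e z)⁻¹ (B.H e z) (dV (s.f e) z)) ≤ ‖D s‖ ^ 2)
    (h2 : ∀ (χ : Z → ℝ) (hχ : SmoothFn (n := n) χ), ∃ C : ℝ, ∀ s : B.S,
      ‖D (smS χ hχ s) - smS χ hχ (D s)‖ ≤ C * ‖s‖)
    (h3 : ∀ (χ : Z → ℝ) (hχ : SmoothFn (n := n) χ) (s : B.S),
      D (smS χ hχ (smS χ hχ s)) - smS χ hχ (D (smS χ hχ s)) =
        smS χ hχ (D (smS χ hχ s) - smS χ hχ (D s)))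
    (hDs : ∀ s t : B.S, inner ℂ (D s) t = inner ℂ s (D t))
    (hKs : ∀ s t : B.S, inner ℂ (K s) t = inner ℂ s (K t))
    (hK2 : ∀ (s : B.S) e x, At e x → (K (K s)).f e (e x) = ((V x : ℝ) : ℂ) • s.f e (e x)) :
    ∃ c > 0, ∃ t₀ > 0, ∀ t : ℝ, t₀ ≤ t → ∀ s : B.S,
      (∀ e x, At e x → (D (K s) + K (D s)).f e (e x) = R e (e x) *ᵥ s.f e (e x)) →
      c * t * ‖s‖ ^ 2 ≤ ‖D s + (t : ℂ) • K s‖ ^ 2 := by
  have hHR : ∀ e x, At e x → MC 1 (fun z => B.H e z * R e z) (e x) := fun e x hx =>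
    MC.mul (fun i j => (B.H_smooth e x hx i j).of_le (by norm_cast)) (hR e x hx)
  obtain ⟨c, hc, t₀, h⟩ := glob_bound hw hHR hV hgood D hden hbkn h2 h3
  refine ⟨c, hc, max t₀ 1, lt_max_of_lt_right one_pos, fun t ht s hs => ?_⟩
  have hdR := isDensity_HR hs
  refine (h t ((le_max_left _ _).trans ht) s hdR).trans_eq ?_
  have e1 : intX (fun e z => qf (B.H e z * R e z) (s.f e z)) =
      2 * (inner ℂ (D s) (K s)).re := by
    have a1 : intX (fun e z => qf (B.H e z * R e z) (s.f e z)) =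
        (inner ℂ s (D (K s) + K (D s))).re := by
      rw [Bun.inner_eq, intC_re]
      refine intX_congr fun e x hx => ?_
      rw [qf_mul, ← hs e x hx]; rfl
    rw [a1, inner_add_right, ← hDs s (K s), ← hKs s (D s), Complex.add_re,
      ← inner_conj_symm (K s) (D s), Complex.conj_re]
    ring
  have e2 : intX (fun e z => V (e.symm z) * (B.den s.f s.f e z).re) = ‖K s‖ ^ 2 := by
    rw [← inner_self_eq_norm_sq (𝕜 := ℂ), hKs s (K s)]
    change _ = (inner ℂ s (K (K s))).re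
    rw [Bun.inner_eq, intC_re]
    refine intX_congr fun e x hx => ?_
    unfold Bun.den
    rw [hK2 s e x hx, Matrix.mulVec_smul, dotProduct_smul, smul_eq_mul, Complex.re_ofReal_mul,
      e.left_inv hx.2]
  rw [e1, e2]
  have e3 := norm_add_sq (𝕜 := ℂ) (D s) ((t : ℂ) • K s)
  rw [inner_smul_right, norm_smul, mul_pow] at e3
  rw [e3]
  have e4 : RCLike.re ((t : ℂ) * inner ℂ (D s) (K s)) = t * (inner ℂ (D s) (K s)).re := by
    change ((t : ℂ) * inner ℂ (D s) (K s)).re = _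
    rw [Complex.re_ofReal_mul]
  rw [e4]
  have e5 : ‖(t : ℂ)‖ ^ 2 = t ^ 2 := by
    rw [Complex.norm_real, Real.norm_eq_abs, sq_abs]
  rw [e5]
  ring

end

end Vale.Agent.P299.H721
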