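import Vale.Agent.P299.H598.IX.Op
import Vale.Agent.P299.H721.LowA

/-!
# P299, INDEX-LOWER: boundedness of matrix fields; commutators with functions
-/

open scoped Manifold ContDiff ComplexOrder Topology Matrix ComplexConjugate
open MeasureTheory Set Filter
open Vale.Agent.P272.K Vale.Agent.P272.K.INT Vale.Agent.P272.K.C2 Vale.Agent.P299.IX

noncomputable section

namespace Vale.Agent.P299.H721

section
variable {n : ℕ} {Z : Type*} [TopologicalSpace Z] [ChartedSpace (Cm n) Z]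
  {κ : Type*} [Fintype κ] [DecidableEq κ] {B : Bun n Z κ}

omit [DecidableEq κ] in
lemma qf_mulVec (H M : Matrix κ κ ℂ) (x : κ → ℂ) : qf H (M *ᵥ x) = qf (Mᴴ * H * M) x := by
  unfold qf
  rw [Matrix.star_mulVec, ← Matrix.dotProduct_mulVec, Matrix.mulVec_mulVec,
    Matrix.mulVec_mulVec, Matrix.mul_assoc]

omit [DecidableEq κ] in
lemma continuousAt_matMul {E : Type*} [TopologicalSpace E] {A B : E → Matrix κ κ ℂ} {z : E}
    (hA : ∀ i j, ContinuousAt (fun z => A z i j) z) (hB : ∀ i j, ContinuousAt (fun z => B z i j) z)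
    (i j : κ) : ContinuousAt (fun z => (A z * B z) i j) z := by
  simp only [Matrix.mul_apply]
  have : ∀ k ∈ (Finset.univ : Finset κ), ContinuousAt (fun z => A z i k * B z k j) z :=
    fun k _ => (hA i k).mul (hB k j)
  exact tendsto_finsetSum _ this

lemma exists_bd_near {M : Chart n Z → Cm n → Matrix κ κ ℂ} {e : Chart n Z} {x : Z} (he : At e x)
    (hM : ∀ i j, ContinuousAt (fun z => M e z i j) (e x)) :
    ∃ C : ℝ, 0 ≤ C ∧ ∀ᶠ z in 𝓝 (e x), ∀ a, qf (B.H e z) (M e z *ᵥ a) ≤ C * qf (B.H e z) a := by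
  have hH : ∀ i j, ContinuousAt (fun z => B.H e z i j) (e x) := fun i j =>
    (B.H_smooth e x he i j).continuousAt
  have hH0 := B.H_pos e x he
  set F : Cm n → Matrix κ κ ℂ := fun z => (M e z)ᴴ * B.H e z * M e z with hF
  have hFc : ∀ i j, ContinuousAt (fun z => F z i j) (e x) := by
    refine continuousAt_matMul (continuousAt_matMul (fun i j => ?_) hH) hM
    simp only [Matrix.conjTranspose_apply]
    exact (hM j i).star
  obtain ⟨k, hk, hkx⟩ := qf_coercive hH0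
  obtain ⟨C, hC0, hC⟩ : ∃ C : ℝ, 0 ≤ C ∧ ∀ a, |qf (F (e x)) a| ≤ C * qf (B.H e (e x)) a := by
    obtain ⟨b, hb⟩ : ∃ b : ℝ, ∀ i j, ‖F (e x) i j‖ ≤ b := by
      refine ⟨∑ i, ∑ j, ‖F (e x) i j‖, fun i j => ?_⟩
      refine le_trans ?_ (Finset.single_le_sum (f := fun i => ∑ j, ‖F (e x) i j‖)
        (fun i _ => Finset.sum_nonneg fun j _ => norm_nonneg _) (Finset.mem_univ i))
      exact Finset.single_le_sum (f := fun j => ‖F (e x) i j‖) (fun j _ => norm_nonneg _)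
        (Finset.mem_univ j)
    refine ⟨(Fintype.card κ : ℝ) ^ 2 * |b| / k, by positivity, fun a => ?_⟩
    have h1 := abs_qf_le (fun i j => (hb i j).trans (le_abs_self b)) a
    have h2 := hkx a
    rw [div_mul_eq_mul_div, le_div_iff₀ hk]
    calc |qf (F (e x)) a| * k ≤ ((Fintype.card κ : ℝ) ^ 2 * |b| * ‖a‖ ^ 2) * k := by gcongr
      _ = (Fintype.card κ : ℝ) ^ 2 * |b| * (k * ‖a‖ ^ 2) := by ring
      _ ≤ (Fintype.card κ : ℝ) ^ 2 * |b| * qf (B.H e (e x)) a := by gcongr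
  refine ⟨2 * (C + 1), by positivity, ?_⟩
  filter_upwards [qf_near hFc hH0 (ε := 1) one_pos, qf_near hH hH0 (ε := 1 / 2) (by norm_num)]
    with z h1 h2 a
  rw [qf_mulVec]
  have h3 := abs_le.1 (h1 a)
  have h4 := abs_le.1 (h2 a)
  have h5 := abs_le.1 (hC a)
  change qf (F z) a ≤ _
  have h6 : 0 ≤ qf (B.H e (e x)) a := qf_nonneg hH0.posSemidef a
  nlinarith [h3.2, h4.1, h5.2]

/-- a map given pointwise by a continuous matrix field is bounded -/
theorem bounded_of_matrix [IsManifold 𝓘(ℂ, Cm n) ω Z] [T2Space Z] [CompactSpace Z]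
    {M : Chart n Z → Cm n → Matrix κ κ ℂ}
    (hM : ∀ e x, At e x → ∀ i j, ContinuousAt (fun z => M e z i j) (e x)) :
    ∃ C : ℝ, 0 ≤ C ∧ ∀ s q : B.S, (∀ e x, At e x → q.f e (e x) = M e (e x) *ᵥ s.f e (e x)) →
      ‖q‖ ≤ C * ‖s‖ := by
  have hloc : ∀ x : Z, ∃ (e : Chart n Z) (C : ℝ), At e x ∧ 0 ≤ C ∧
      ∀ᶠ z in 𝓝 (e x), ∀ a, qf (B.H e z) (M e z *ᵥ a) ≤ C * qf (B.H e z) a := fun x => by
    obtain ⟨C, hC, h⟩ := exists_bd_near (B := B) (M := M) (e := chartAt (Cm n) x) (x := x)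
      ⟨chart_mem_atlas _ x, mem_chart_source _ x⟩
      (hM _ x ⟨chart_mem_atlas _ x, mem_chart_source _ x⟩)
    exact ⟨_, C, ⟨chart_mem_atlas _ x, mem_chart_source _ x⟩, hC, h⟩
  choose e C he hC0 hC using hloc
  have hU : ∀ x ∈ (univ : Set Z), {y | y ∈ (e x).source ∧
      ∀ a, qf (B.H (e x) (e x y)) (M (e x) (e x y) *ᵥ a) ≤ C x * qf (B.H (e x) (e x y)) a} ∈
      𝓝 x := fun x _ => by
    have h1 : ContinuousAt (e x) x := (e x).continuousAt (he x).2
    filter_upwards [(e x).open_source.mem_nhds (he x).2, h1.eventually (hC x)] with y hy hy'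
    exact ⟨hy, hy'⟩
  obtain ⟨t, -, ht⟩ := isCompact_univ.elim_nhds_subcover _ hU
  set C₁ : ℝ := ∑ x ∈ t, C x with hC₁
  have hC₁0 : 0 ≤ C₁ := Finset.sum_nonneg fun x _ => hC0 x
  refine ⟨Real.sqrt C₁, Real.sqrt_nonneg _, fun s q hq => ?_⟩
  have hpt : ∀ e' y, At e' y → (B.den q.f q.f e' (e' y)).re ≤
      C₁ * (B.den s.f s.f e' (e' y)).re := fun e' y hy => by
    obtain ⟨x, hx⟩ := mem_iUnion.1 (ht (mem_univ y))
    obtain ⟨hxt, hyx, hya⟩ := mem_iUnion.1 hx
    have hyx' : At (e x) y := ⟨(he x).1, hyx⟩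
    have h1 : (B.den q.f q.f (e x) (e x y)).re ≤ C₁ * (B.den s.f s.f (e x) (e x y)).re := by
      rw [den_re, den_re, hq _ _ hyx']
      refine (hya _).trans ?_
      have h2 : C x ≤ C₁ := Finset.single_le_sum (f := C) (fun x _ => hC0 x) hxt
      exact mul_le_mul_of_nonneg_right h2 (Bun.den_self_nonneg (u := s.f) hyx')
    rw [Bun.den_change q.isSec q.isSec hy hyx', Bun.den_change s.isSec s.isSec hy hyx',
      Complex.re_mul_ofReal, Complex.re_mul_ofReal, ← mul_assoc]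
    gcongr
  have hn : ‖q‖ ^ 2 ≤ C₁ * ‖s‖ ^ 2 := by
    rw [Bun.norm_sq_eq, Bun.norm_sq_eq, ← intX_const_mul]
    exact intX_mono (Bun.isDensity_re q.isSec q.isSec)
      ((Bun.isDensity_re s.isSec s.isSec).const_mul C₁) hpt
  have h3 : ‖q‖ ^ 2 ≤ (Real.sqrt C₁ * ‖s‖) ^ 2 := by
    rw [mul_pow, Real.sq_sqrt hC₁0]; exact hn
  exact le_of_sq_le_sq h3 (by positivity)

/-- the matrix field of the commutator of a first order operator with a function -/
def comM (A Ab : Fin n → Chart n Z → Cm n → Matrix κ κ ℂ) (χ : Z → ℝ) (e : Chart n Z) (z : Cm n) :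
    Matrix κ κ ℂ :=
  ∑ l, (dz l (fun y => ((χ (e.symm y) : ℝ) : ℂ)) z • A l e z +
    dzb l (fun y => ((χ (e.symm y) : ℝ) : ℂ)) z • Ab l e z)

variable [IsManifold 𝓘(ℂ, Cm n) ω Z]

omit [IsManifold 𝓘(ℂ, Cm n) ω Z] in
lemma act_smS {A Ab : Fin n → Chart n Z → Cm n → Matrix κ κ ℂ}
    {C : Chart n Z → Cm n → Matrix κ κ ℂ} {χ : Z → ℝ} (hχ : SmoothFn (n := n) χ) (s : B.S)
    {e : Chart n Z} {x : Z} (hx : At e x) :
    act A Ab C (smS χ hχ s).f e (e x) = ((χ x : ℝ) : ℂ) • act A Ab C s.f e (e x) +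
      comM A Ab χ e (e x) *ᵥ s.f e (e x) := by
  have hnear : (smS χ hχ s).f e =ᶠ[𝓝 (e x)] fun y => ((χ (e.symm y) : ℝ) : ℂ) • s.f e y := by
    filter_upwards [e.open_target.mem_nhds (e.map_source hx.2)] with z hz
    exact smS_z hχ s hx.1 hz
  have hc : ContDiffAt ℝ 1 (fun y => ((χ (e.symm y) : ℝ) : ℂ)) (e x) :=
    (INT.ofReal_contDiffAt (hχ e x hx)).of_le (by norm_cast)
  have hs : VC 1 (s.f e) (e x) := fun i => (s.smooth hx i).of_le (by norm_cast)
  unfold act comM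
  rw [Finset.sum_congr rfl fun l _ => by
    rw [DV_congr hnear, DVb_congr hnear, DV_smul hc hs, DVb_smul hc hs], smS_at hχ s hx,
    Matrix.sum_mulVec, smul_add, Finset.smul_sum, add_right_comm, ← Finset.sum_add_distrib,
    Matrix.mulVec_smul]
  congr 1
  refine Finset.sum_congr rfl fun l _ => ?_
  rw [e.left_inv hx.2, Matrix.mulVec_add, Matrix.mulVec_add, Matrix.mulVec_smul,
    Matrix.mulVec_smul, Matrix.mulVec_smul, Matrix.mulVec_smul, Matrix.add_mulVec,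
    Matrix.smul_mulVec, Matrix.smul_mulVec, smul_add]
  abel

variable [T2Space Z] [CompactSpace Z]

section op
variable {D : B.S →ₗ[ℂ] B.S} {A Ab : Fin n → Chart n Z → Cm n → Matrix κ κ ℂ}
  {C : Chart n Z → Cm n → Matrix κ κ ℂ}

omit [T2Space Z] [CompactSpace Z] in
lemma comm_at (hD : ∀ (s : B.S) e x, At e x → (D s).f e (e x) = act A Ab C s.f e (e x))
    {χ : Z → ℝ} (hχ : SmoothFn (n := n) χ) (s : B.S) {e : Chart n Z} {x : Z} (hx : At e x) :
    (D (smS χ hχ s) - smS χ hχ (D s)).f e (e x) = comM A Ab χ e (e x) *ᵥ s.f e (e x) := by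
  rw [Bun.S.sub_f, Pi.sub_apply, Pi.sub_apply, hD _ e x hx, smS_at hχ _ hx, hD s e x hx,
    act_smS hχ s hx, add_sub_cancel_left]

/-- first order operators commute with functions up to a bounded operator -/
theorem comm_bounded (hD : ∀ (s : B.S) e x, At e x → (D s).f e (e x) = act A Ab C s.f e (e x))
    (hA : ∀ l e x, At e x → ∀ i j, ContinuousAt (fun z => A l e z i j) (e x))
    (hAb : ∀ l e x, At e x → ∀ i j, ContinuousAt (fun z => Ab l e z i j) (e x))
    (χ : Z → ℝ) (hχ : SmoothFn (n := n) χ) : ∃ C : ℝ, ∀ s : B.S,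
      ‖D (smS χ hχ s) - smS χ hχ (D s)‖ ≤ C * ‖s‖ := by
  obtain ⟨C', -, h⟩ := bounded_of_matrix (B := B) (M := comM A Ab χ) fun e x hx i j => by
    have hc : ContDiffAt ℝ ∞ (fun y => ((χ (e.symm y) : ℝ) : ℂ)) (e x) :=
      INT.ofReal_contDiffAt (hχ e x hx)
    have h1 : ∀ l, ContinuousAt (dz l (fun y => ((χ (e.symm y) : ℝ) : ℂ))) (e x) := fun l =>
      (contDiffAt_dz (m := 0) l hc (by norm_cast)).continuousAt
    have h2 : ∀ l, ContinuousAt (dzb l (fun y => ((χ (e.symm y) : ℝ) : ℂ))) (e x) := fun l =>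
      (contDiffAt_dzb (m := 0) l hc (by norm_cast)).continuousAt
    simp only [comM, Matrix.sum_apply, Matrix.add_apply, Matrix.smul_apply, smul_eq_mul]
    have : ∀ l ∈ (Finset.univ : Finset (Fin n)), ContinuousAt (fun z =>
        dz l (fun y => ((χ (e.symm y) : ℝ) : ℂ)) z * A l e z i j +
        dzb l (fun y => ((χ (e.symm y) : ℝ) : ℂ)) z * Ab l e z i j) (e x) := fun l _ =>
      ((h1 l).mul (hA l e x hx i j)).add ((h2 l).mul (hAb l e x hx i j))
    exact tendsto_finsetSum _ this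
  exact ⟨C', fun s => h s _ fun e x hx => comm_at hD hχ s hx⟩

/-- the commutator with a function commutes with functions -/
theorem comm_comm (hD : ∀ (s : B.S) e x, At e x → (D s).f e (e x) = act A Ab C s.f e (e x))
    (χ : Z → ℝ) (hχ : SmoothFn (n := n) χ) (s : B.S) :
    D (smS χ hχ (smS χ hχ s)) - smS χ hχ (D (smS χ hχ s)) =
      smS χ hχ (D (smS χ hχ s) - smS χ hχ (D s)) :=
  Bun.S.ext_f fun e x hx => by
    rw [comm_at hD hχ _ hx, smS_at hχ _ hx, smS_at hχ _ hx, comm_at hD hχ _ hx,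
      Matrix.mulVec_smul]

end op

end

end Vale.Agent.P299.H721
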