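import Vale.Agent.P299.H598.IX.Op
import Vale.Agent.P299.H721.LowA

/-!
# P299, INDEX-LOWER: the energy form on the total bundle
-/

open scoped Manifold ContDiff ComplexOrder Topology Matrix ComplexConjugate
open MeasureTheory Set Filter
open Vale.Agent.P272.K Vale.Agent.P272.K.INT Vale.Agent.P272.K.C2 Vale.Agent.P299.IX

noncomputable section

namespace Vale.Agent.P299.H721

section
variable {n : ℕ} {κ o : Type*} [Fintype κ] [DecidableEq κ] [Fintype o] [DecidableEq o]

lemma en_blockDiagonal (W : Matrix (Fin n) (Fin n) ℂ) (M : o → Matrix κ κ ℂ)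
    (ξ : Fin n → κ × o → ℂ) :
    en W (Matrix.blockDiagonal M) ξ = ∑ S, en W (M S) fun b I => ξ b (I, S) := by
  unfold en
  rw [← Complex.re_sum]
  congr 1
  symm
  rw [Finset.sum_comm]
  refine Finset.sum_congr rfl fun b _ => ?_
  rw [Finset.sum_comm]
  refine Finset.sum_congr rfl fun l _ => ?_
  rw [Bun.blockDiagonal_form, Finset.mul_sum]

lemma qf_blockDiagonal (M : o → Matrix κ κ ℂ) (x : κ × o → ℂ) :
    qf (Matrix.blockDiagonal M) x = ∑ S, qf (M S) fun I => x (I, S) := by
  unfold qf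
  rw [Bun.blockDiagonal_form, Complex.re_sum]

end

section
variable {n : ℕ} {Z : Type*} [TopologicalSpace Z] [ChartedSpace (Cm n) Z]
  [IsManifold 𝓘(ℂ, Cm n) ω Z] {w : D.FormM n Z} {k : ℕ} {hw : IsKahler w}

lemma en_FB (g : Frm n Z) (e : Chart n Z) (z : Cm n) :
    en (w e z)⁻¹ ((FB k hw).H e z) (dV (g e) z) = (gradbX k w g g e z).re := by
  have h1 : ∀ u v : FI n → ℂ, star v ⬝ᵥ ((FB k hw).H e z *ᵥ u) = hp k (w e) z u v := fun u v => by
    unfold FB hp rho Ld pr
    rw [Matrix.smul_mulVec, dotProduct_smul, smul_eq_mul]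
    congr 1
    simp only [dotProduct]
    exact Finset.sum_congr rfl fun i _ => by rw [mul_comm]; rfl
  unfold en gradbX
  congr 1
  rw [Finset.sum_comm]
  exact Finset.sum_congr rfl fun l _ => Finset.sum_congr rfl fun b _ => by rw [h1]; rfl

end

end Vale.Agent.P299.H721
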