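import Vale.Agent.P272.K.INT.Wirt

/-!
# P299, INDEX-LOWER: the flat inequality

For a constant vector `k`, put `D f = ∑ k_b ∂f/∂z̄_b`, `D' f = ∑ conj k_b ∂f/∂z_b`. For a compactly
supported `f` and any `C¹` function `γ`:
`t ∫ Re (D' γ) |f|² ≤ ∫ |D f|² + t² ∫ |γ|² |f|²`.
-/

open scoped ContDiff Topology ComplexConjugate
open MeasureTheory Set Filter
open Vale.Agent.P272.K Vale.Agent.P272.K.INT

noncomputable section

namespace Vale.Agent.P299.H721

variable {n : ℕ}

/-- `∑ k_b ∂f/∂z̄_b` -/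
def DD (k : Fin n → ℂ) (f : Cm n → ℂ) (z : Cm n) : ℂ := ∑ b, k b * dzb b f z

/-- `∑ conj k_b ∂f/∂z_b` -/
def DD' (k : Fin n → ℂ) (f : Cm n → ℂ) (z : Cm n) : ℂ := ∑ b, conj (k b) * dz b f z

variable {k : Fin n → ℂ} {f g : Cm n → ℂ} {z : Cm n}

lemma DD'_conj : DD' k (fun w => conj (f w)) z = conj (DD k f z) := by
  simp only [DD', DD, dz_conj, map_sum, map_mul]

lemma DD_conj : DD k (fun w => conj (f w)) z = conj (DD' k f z) := by
  simp only [DD', DD, dzb_conj, map_sum, map_mul, Complex.conj_conj]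

lemma DD'_mul (hf : DifferentiableAt ℝ f z) (hg : DifferentiableAt ℝ g z) :
    DD' k (fun w => f w * g w) z = DD' k f z * g z + f z * DD' k g z := by
  simp only [DD', dz_mul hf hg, Finset.sum_mul, Finset.mul_sum, ← Finset.sum_add_distrib]
  exact Finset.sum_congr rfl fun b _ => by ring

lemma DD_mul (hf : DifferentiableAt ℝ f z) (hg : DifferentiableAt ℝ g z) :
    DD k (fun w => f w * g w) z = DD k f z * g z + f z * DD k g z := by
  simp only [DD, dzb_mul hf hg, Finset.sum_mul, Finset.mul_sum, ← Finset.sum_add_distrib]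
  exact Finset.sum_congr rfl fun b _ => by ring

lemma contDiff_dz {f : Cm n → ℂ} {m l : WithTop ℕ∞} (hf : ContDiff ℝ l f) (h : m + 1 ≤ l)
    (b : Fin n) : ContDiff ℝ m (dz b f) :=
  contDiff_iff_contDiffAt.2 fun _ => contDiffAt_dz hf.contDiffAt h

lemma contDiff_dzb {f : Cm n → ℂ} {m l : WithTop ℕ∞} (hf : ContDiff ℝ l f) (h : m + 1 ≤ l)
    (b : Fin n) : ContDiff ℝ m (dzb b f) :=
  contDiff_iff_contDiffAt.2 fun _ => contDiffAt_dzb hf.contDiffAt h

lemma contDiff_DD {m l : WithTop ℕ∞} (hf : ContDiff ℝ l f) (h : m + 1 ≤ l) :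
    ContDiff ℝ m (DD k f) :=
  ContDiff.sum fun b _ => contDiff_const.mul (contDiff_dzb hf h b)

lemma contDiff_DD' {m l : WithTop ℕ∞} (hf : ContDiff ℝ l f) (h : m + 1 ≤ l) :
    ContDiff ℝ m (DD' k f) :=
  ContDiff.sum fun b _ => contDiff_const.mul (contDiff_dz hf h b)

lemma dz_zero_of_notMem (hz : z ∉ tsupport f) (b : Fin n) : dz b f z = 0 := by
  have h : f =ᶠ[𝓝 z] fun _ => 0 := notMem_tsupport_iff_eventuallyEq.1 hz
  rw [dz_congr h, dz_const]

lemma dzb_zero_of_notMem' (hz : z ∉ tsupport f) (b : Fin n) : dzb b f z = 0 := by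
  have h : f =ᶠ[𝓝 z] fun _ => 0 := notMem_tsupport_iff_eventuallyEq.1 hz
  rw [dzb_congr h, dzb_const]

lemma DD_zero_of_notMem (hz : z ∉ tsupport f) : DD k f z = 0 := by
  simp only [DD, dzb_zero_of_notMem' hz, mul_zero, Finset.sum_const_zero]

lemma DD'_zero_of_notMem (hz : z ∉ tsupport f) : DD' k f z = 0 := by
  simp only [DD', dz_zero_of_notMem hz, mul_zero, Finset.sum_const_zero]

lemma hcs_of_zero {E : Type*} [Zero E] {F : Cm n → E} (hc : HasCompactSupport f)
    (h : ∀ z, z ∉ tsupport f → F z = 0) : HasCompactSupport F :=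
  HasCompactSupport.intro hc h

lemma hcs_DD (hc : HasCompactSupport f) : HasCompactSupport (DD k f) :=
  hcs_of_zero hc fun _ hz => DD_zero_of_notMem hz

lemma hcs_DD' (hc : HasCompactSupport f) : HasCompactSupport (DD' k f) :=
  hcs_of_zero hc fun _ hz => DD'_zero_of_notMem hz

lemma hcs_dz (hc : HasCompactSupport f) (b : Fin n) : HasCompactSupport (dz b f) :=
  hcs_of_zero hc fun _ hz => dz_zero_of_notMem hz b

lemma hcs_dzb (hc : HasCompactSupport f) (b : Fin n) : HasCompactSupport (dzb b f) :=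
  hcs_of_zero hc fun _ hz => dzb_zero_of_notMem' hz b

lemma integral_DD' (hf : ContDiff ℝ 1 f) (hc : HasCompactSupport f) : ∫ z, DD' k f z = 0 := by
  unfold DD'
  rw [integral_finsetSum]
  · exact Finset.sum_eq_zero fun b _ => by
      rw [integral_const_mul, integral_dz_eq_zero hf hc, mul_zero]
  · intro b _
    exact (((contDiff_dz (m := 0) hf (by norm_num) b).continuous).integrable_of_hasCompactSupport
      (hcs_dz hc b)).const_mul _

lemma integral_DD (hf : ContDiff ℝ 1 f) (hc : HasCompactSupport f) : ∫ z, DD k f z = 0 := by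
  unfold DD
  rw [integral_finsetSum]
  · exact Finset.sum_eq_zero fun b _ => by
      rw [integral_const_mul, integral_dzb_eq_zero hf hc, mul_zero]
  · intro b _
    exact (((contDiff_dzb (m := 0) hf (by norm_num) b).continuous).integrable_of_hasCompactSupport
      (hcs_dzb hc b)).const_mul _

lemma DD_DD'_comm (hf : ContDiff ℝ 2 f) : DD k (DD' k f) z = DD' k (DD k f) z := by
  have h1 : ∀ b, ContDiff ℝ 1 (dz b f) := fun b => contDiff_dz hf (by norm_num) b
  have h2 : ∀ b, ContDiff ℝ 1 (dzb b f) := fun b => contDiff_dzb hf (by norm_num) b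
  have e1 : DD k (DD' k f) z = ∑ b, ∑ c, k b * (conj (k c) * dzb b (dz c f) z) := by
    simp only [DD]
    refine Finset.sum_congr rfl fun b _ => ?_
    have : dzb b (DD' k f) z = ∑ c, conj (k c) * dzb b (dz c f) z := by
      unfold DD'
      rw [dzb_sum Finset.univ fun c _ => ((h1 c).differentiable (by norm_num) z).const_mul _]
      exact Finset.sum_congr rfl fun c _ => dzb_const_mul _ ((h1 c).differentiable (by norm_num) z)
    rw [this, Finset.mul_sum]
  have e2 : DD' k (DD k f) z = ∑ c, ∑ b, conj (k c) * (k b * dz c (dzb b f) z) := by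
    simp only [DD']
    refine Finset.sum_congr rfl fun c _ => ?_
    have : dz c (DD k f) z = ∑ b, k b * dz c (dzb b f) z := by
      unfold DD
      rw [dz_sum Finset.univ fun b _ => ((h2 b).differentiable (by norm_num) z).const_mul _]
      exact Finset.sum_congr rfl fun b _ => dz_const_mul _ ((h2 b).differentiable (by norm_num) z)
    rw [this, Finset.mul_sum]
  rw [e1, e2, Finset.sum_comm]
  refine Finset.sum_congr rfl fun c _ => Finset.sum_congr rfl fun b _ => ?_
  rw [dz_dzb_comm hf.contDiffAt]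
  ring

/-- `∫ |D' f|² = ∫ |D f|²` for compactly supported `f` -/
lemma integral_norm_DD' (hf : ContDiff ℝ 2 f) (hc : HasCompactSupport f) :
    ∫ z, ‖DD' k f z‖ ^ 2 = ∫ z, ‖DD k f z‖ ^ 2 := by
  have hf1 : ContDiff ℝ 1 f := hf.of_le (by norm_num)
  have hcj : ContDiff ℝ 2 (fun w => conj (f w)) := Complex.conjCLE.contDiff.comp hf
  have hcj1 : ContDiff ℝ 1 (fun w => conj (f w)) := hcj.of_le (by norm_num)
  have d1 : ContDiff ℝ 1 (DD k f) := contDiff_DD hf (by norm_num)
  have d1' : ContDiff ℝ 1 (DD' k f) := contDiff_DD' hf (by norm_num)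
  have i1 := integral_DD (k := k) (f := fun w => DD' k f w * conj (f w)) (d1'.mul hcj1)
    ((hcs_DD' hc).mul_right)
  have i2 := integral_DD' (k := k) (f := fun w => DD k f w * conj (f w)) (d1.mul hcj1)
    ((hcs_DD hc).mul_right)
  have e1 : ∀ z, DD k (fun w => DD' k f w * conj (f w)) z =
      DD k (DD' k f) z * conj (f z) + DD' k f z * conj (DD' k f z) := fun z => by
    rw [DD_mul (d1'.differentiable (by norm_num) z) (hcj1.differentiable (by norm_num) z), DD_conj]
  have e2 : ∀ z, DD' k (fun w => DD k f w * conj (f w)) z =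
      DD k (DD' k f) z * conj (f z) + DD k f z * conj (DD k f z) := fun z => by
    rw [DD'_mul (d1.differentiable (by norm_num) z) (hcj1.differentiable (by norm_num) z),
      DD'_conj, DD_DD'_comm hf]
  simp only [e1] at i1
  simp only [e2] at i2
  have c0 : Continuous (fun z => DD k (DD' k f) z * conj (f z)) :=
    ((contDiff_DD (m := 0) d1' (by norm_num)).continuous).mul hcj.continuous
  have s0 : HasCompactSupport (fun z => DD k (DD' k f) z * conj (f z)) :=
    (hcs_DD (hcs_DD' hc)).mul_right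
  have I0 : Integrable (fun z => DD k (DD' k f) z * conj (f z)) :=
    c0.integrable_of_hasCompactSupport s0
  have I1 : Integrable (fun z => DD' k f z * conj (DD' k f z)) :=
    (d1'.continuous.mul (Complex.continuous_conj.comp d1'.continuous)).integrable_of_hasCompactSupport
      ((hcs_DD' hc).mul_right)
  have I2 : Integrable (fun z => DD k f z * conj (DD k f z)) :=
    (d1.continuous.mul (Complex.continuous_conj.comp d1.continuous)).integrable_of_hasCompactSupport
      ((hcs_DD hc).mul_right)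
  rw [integral_add I0 I1] at i1
  rw [integral_add I0 I2] at i2
  have h : ∫ z, DD' k f z * conj (DD' k f z) = ∫ z, DD k f z * conj (DD k f z) := by
    linear_combination i1 - i2
  simp only [Complex.mul_conj'] at h
  have r1 : ∫ z, ((‖DD' k f z‖ : ℂ)) ^ 2 = ((∫ z, ‖DD' k f z‖ ^ 2 : ℝ) : ℂ) := by
    rw [← integral_complex_ofReal]; simp
  have r2 : ∫ z, ((‖DD k f z‖ : ℂ)) ^ 2 = ((∫ z, ‖DD k f z‖ ^ 2 : ℝ) : ℂ) := by
    rw [← integral_complex_ofReal]; simp
  rw [r1, r2] at h
  exact_mod_cast h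

lemma continuous_mul_of_support {E : Type*} [NormedRing E] {G : Cm n → E} {F : Cm n → E}
    (hF : Continuous F) (hG : ∀ z ∈ tsupport F, ContinuousAt G z) :
    Continuous (fun z => G z * F z) := by
  refine continuous_iff_continuousAt.2 fun z => ?_
  by_cases hz : z ∈ tsupport F
  · exact (hG z hz).mul hF.continuousAt
  · have h : (fun z => G z * F z) =ᶠ[𝓝 z] fun _ => 0 := by
      filter_upwards [notMem_tsupport_iff_eventuallyEq.1 hz] with y hy
      simp [hy]
    exact continuousAt_const.congr h.symm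

lemma contDiff_mul_of_support {m : WithTop ℕ∞} {G : Cm n → ℂ} {F : Cm n → ℂ}
    (hF : ContDiff ℝ m F) (hG : ∀ z ∈ tsupport F, ContDiffAt ℝ m G z) :
    ContDiff ℝ m (fun z => G z * F z) := by
  refine contDiff_iff_contDiffAt.2 fun z => ?_
  by_cases hz : z ∈ tsupport F
  · exact (hG z hz).mul hF.contDiffAt
  · have h : (fun z => G z * F z) =ᶠ[𝓝 z] fun _ => 0 := by
      filter_upwards [notMem_tsupport_iff_eventuallyEq.1 hz] with y hy
      simp [hy]
    exact contDiffAt_const.congr_of_eventuallyEq h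

/-- pointwise identity behind the flat inequality -/
lemma pointwise_flat {γ : Cm n → ℂ} (t : ℝ) (hf : DifferentiableAt ℝ f z)
    (hγ : DifferentiableAt ℝ γ z) :
    2 * t * ((DD' k γ z).re * ‖f z‖ ^ 2) ≤ ‖DD k f z‖ ^ 2 + ‖DD' k f z‖ ^ 2 +
      2 * t ^ 2 * (‖γ z‖ ^ 2 * ‖f z‖ ^ 2) +
      2 * t * (DD' k (fun w => γ w * (f w * conj (f w))) z).re := by
  have hcj : DifferentiableAt ℝ (fun w => conj (f w)) z :=
    Complex.conjCLE.differentiableAt.comp z hf
  have e : DD' k (fun w => γ w * (f w * conj (f w))) z = DD' k γ z * (f z * conj (f z)) +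
      γ z * (DD' k f z * conj (f z) + f z * conj (DD k f z)) := by
    have hm : DifferentiableAt ℝ (fun w => f w * conj (f w)) z := hf.mul hcj
    rw [DD'_mul hγ hm, DD'_mul hf hcj, DD'_conj]
  have h1 : 0 ≤ ‖DD k f z + t * (γ z * f z)‖ ^ 2 := by positivity
  have h2 : 0 ≤ ‖DD' k f z + t * (conj (γ z) * f z)‖ ^ 2 := by positivity
  rw [e]
  simp only [← Complex.normSq_eq_norm_sq] at *
  simp only [Complex.normSq_apply, Complex.add_re, Complex.add_im, Complex.mul_re, Complex.mul_im,
    Complex.conj_re, Complex.conj_im, Complex.ofReal_re, Complex.ofReal_im] at *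
  nlinarith [h1, h2]

/-- **The flat inequality** (scalar, one first order operator). -/
theorem flat_one {γ : Cm n → ℂ} (t : ℝ) (hf : ContDiff ℝ 2 f) (hc : HasCompactSupport f)
    (hγ : ∀ z ∈ tsupport f, ContDiffAt ℝ 1 γ z) :
    t * ∫ z, (DD' k γ z).re * ‖f z‖ ^ 2 ≤
      (∫ z, ‖DD k f z‖ ^ 2) + t ^ 2 * ∫ z, ‖γ z‖ ^ 2 * ‖f z‖ ^ 2 := by
  have hf1 : ContDiff ℝ 1 f := hf.of_le (by norm_num)
  have hcj : ContDiff ℝ 1 (fun w => conj (f w)) := Complex.conjCLE.contDiff.comp hf1
  have hff : ContDiff ℝ 1 (fun w => f w * conj (f w)) := hf1.mul hcj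
  have ts : tsupport (fun w => f w * conj (f w)) ⊆ tsupport f :=
    tsupport_mul_subset_left
  have hF : ContDiff ℝ 1 (fun w => γ w * (f w * conj (f w))) :=
    contDiff_mul_of_support hff fun z hz => hγ z (ts hz)
  have hFc : HasCompactSupport (fun w => γ w * (f w * conj (f w))) := (hc.mul_right).mul_left
  have d1 : ContDiff ℝ 1 (DD k f) := contDiff_DD hf (by norm_num)
  have d1' : ContDiff ℝ 1 (DD' k f) := contDiff_DD' hf (by norm_num)
  have sq : ∀ z, z ∉ tsupport f → ‖f z‖ ^ 2 = 0 := fun z hz => by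
    rw [image_eq_zero_of_notMem_tsupport hz]; simp
  have hnf : Continuous fun z => ‖f z‖ ^ 2 := (hf.continuous.norm).pow 2
  have tsn : tsupport (fun z => ‖f z‖ ^ 2) ⊆ tsupport f := by
    refine closure_minimal (fun z hz => ?_) (isClosed_tsupport f)
    by_contra h
    exact hz (sq z h)
  have IA : Integrable fun z => (DD' k γ z).re * ‖f z‖ ^ 2 := by
    refine (continuous_mul_of_support hnf fun z hz => ?_).integrable_of_hasCompactSupport
      (hcs_of_zero hc fun z hz => by simp [sq z hz])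
    have : ContDiffAt ℝ 0 (DD' k γ) z := by
      unfold DD'
      exact ContDiffAt.sum fun b _ => contDiffAt_const.mul
        (contDiffAt_dz (hγ z (tsn hz)) (by norm_num))
    exact Complex.continuous_re.continuousAt.comp this.continuousAt
  have IB : Integrable fun z => ‖DD k f z‖ ^ 2 :=
    ((d1.continuous.norm).pow 2).integrable_of_hasCompactSupport
      (hcs_of_zero hc fun z hz => by simp [DD_zero_of_notMem hz])
  have IB' : Integrable fun z => ‖DD' k f z‖ ^ 2 :=
    ((d1'.continuous.norm).pow 2).integrable_of_hasCompactSupport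
      (hcs_of_zero hc fun z hz => by simp [DD'_zero_of_notMem hz])
  have IC : Integrable fun z => ‖γ z‖ ^ 2 * ‖f z‖ ^ 2 := by
    refine (continuous_mul_of_support hnf fun z hz => ?_).integrable_of_hasCompactSupport
      (hcs_of_zero hc fun z hz => by simp [sq z hz])
    exact ((hγ z (tsn hz)).continuousAt.norm).pow 2
  have ID0 : Integrable fun z => DD' k (fun w => γ w * (f w * conj (f w))) z :=
    ((contDiff_DD' (m := 0) hF (by norm_num)).continuous).integrable_of_hasCompactSupport
      (hcs_DD' hFc)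
  have ID : Integrable fun z => (DD' k (fun w => γ w * (f w * conj (f w))) z).re := ID0.re
  have hD : ∫ z, (DD' k (fun w => γ w * (f w * conj (f w))) z).re = 0 := by
    have := integral_DD' (k := k) hF hFc
    have h2 := integral_re ID0
    rw [this] at h2
    simpa using h2
  have J1 : Integrable fun z => ‖DD k f z‖ ^ 2 + ‖DD' k f z‖ ^ 2 := IB.add IB'
  have J2 : Integrable fun z => ‖DD k f z‖ ^ 2 + ‖DD' k f z‖ ^ 2 +
      2 * t ^ 2 * (‖γ z‖ ^ 2 * ‖f z‖ ^ 2) := J1.add (IC.const_mul _)
  have J3 : Integrable fun z => ‖DD k f z‖ ^ 2 + ‖DD' k f z‖ ^ 2 +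
      2 * t ^ 2 * (‖γ z‖ ^ 2 * ‖f z‖ ^ 2) +
      2 * t * (DD' k (fun w => γ w * (f w * conj (f w))) z).re := J2.add (ID.const_mul _)
  have key : ∫ z, 2 * t * ((DD' k γ z).re * ‖f z‖ ^ 2) ≤
      ∫ z, (‖DD k f z‖ ^ 2 + ‖DD' k f z‖ ^ 2 + 2 * t ^ 2 * (‖γ z‖ ^ 2 * ‖f z‖ ^ 2) +
      2 * t * (DD' k (fun w => γ w * (f w * conj (f w))) z).re) := by
    refine integral_mono (IA.const_mul _) J3 fun z => ?_
    by_cases hz : z ∈ tsupport f
    · exact pointwise_flat t (hf.differentiable (by norm_num) z)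
        ((hγ z hz).differentiableAt (by norm_num))
    · have hz' : z ∉ tsupport (fun w => γ w * (f w * conj (f w))) := fun h =>
        hz (ts (tsupport_mul_subset_right h))
      simp only [sq z hz, DD_zero_of_notMem hz, DD'_zero_of_notMem hz, DD'_zero_of_notMem hz']
      simp
  rw [integral_const_mul, integral_add J2 (ID.const_mul _),
    integral_add J1 (IC.const_mul _), integral_add IB IB', integral_const_mul,
    integral_const_mul, hD, integral_norm_DD' hf hc] at key
  linarith

end Vale.Agent.P299.H721
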