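import Vale.Agent.P299.H721.Sml
import Vale.Agent.P272.K.INT.Global

/-!
# P299, INDEX-LOWER: from local lower bounds to a global one

`IMS` localisation with a partition of unity `∑ χ_i² = 1`.
-/

open scoped Manifold ContDiff ComplexOrder Topology Matrix ComplexConjugate
open MeasureTheory Set Filter
open Vale.Agent.P272.K Vale.Agent.P272.K.INT Vale.Agent.P272.K.C2 Vale.Agent.P299.IX

noncomputable section

namespace Vale.Agent.P299.H721

section part
variable {n : ℕ} {Z : Type*} [TopologicalSpace Z] [ChartedSpace (Cm n) Z]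
  [IsManifold 𝓘(ℂ, Cm n) ω Z] [T2Space Z] [CompactSpace Z]

/-- a quadratic partition of unity subordinate to a covering by neighbourhoods -/
theorem exists_sq_part (U : Z → Set Z) (hU : ∀ x, IsOpen (U x)) (hx : ∀ x, x ∈ U x) :
    ∃ (N : ℕ) (p : Fin N → Z) (χ : Fin N → Z → ℝ), (∀ i, SmoothFn (n := n) (χ i)) ∧
      (∀ i, tsupport (χ i) ⊆ U (p i)) ∧ ∀ x, ∑ i, χ i x ^ 2 = 1 := by
  have := isManifold_real n Z
  obtain ⟨t, ht⟩ := isCompact_univ.elim_finite_subcover U hU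
    (fun x _ => mem_iUnion.2 ⟨x, hx x⟩)
  let N := t.card
  let c : Fin N → Z := fun i => (t.equivFin.symm i : Z)
  have hc : (univ : Set Z) ⊆ ⋃ i, U (c i) := by
    intro x hx
    obtain ⟨y, hy⟩ := mem_iUnion.1 (ht hx)
    obtain ⟨hyt, hxy⟩ := mem_iUnion.1 hy
    exact mem_iUnion.2 ⟨t.equivFin ⟨y, hyt⟩, by simpa [c] using hxy⟩
  obtain ⟨f, hf⟩ := SmoothPartitionOfUnity.exists_isSubordinate 𝓘(ℝ, Cm n)
    isClosed_univ (fun i => U (c i)) (fun i => hU (c i)) hc
  have hsum : ∀ x, ∑ i, f i x = 1 := fun x => by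
    have := f.sum_eq_one (mem_univ x)
    rwa [finsum_eq_sum_of_fintype] at this
  have hpos : ∀ x, 0 < ∑ i, f i x ^ 2 := fun x => by
    by_contra hcon
    have h0 : ∑ i, f i x ^ 2 = 0 := le_antisymm (not_lt.1 hcon)
      (Finset.sum_nonneg fun i _ => sq_nonneg _)
    rw [Finset.sum_eq_zero_iff_of_nonneg fun i _ => sq_nonneg _] at h0
    have h1 : ∑ i, f i x = 0 := Finset.sum_eq_zero fun i hi => by
      have := h0 i hi
      exact pow_eq_zero_iff (two_ne_zero) |>.1 this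
    rw [hsum x] at h1
    exact one_ne_zero h1
  have hsm : ∀ i, SmoothFn (n := n) fun x => f i x := fun i =>
    smoothFn_of_contMDiff (f i).contMDiff
  refine ⟨N, c, fun i x => f i x / Real.sqrt (∑ j, f j x ^ 2), fun i e x hx => ?_, fun i => ?_,
    fun x => ?_⟩
  · have h1 : ContDiffAt ℝ ∞ (fun y => ∑ j, f j (e.symm y) ^ 2) (e x) :=
      ContDiffAt.sum fun j _ => (hsm j e x hx).pow 2
    refine (hsm i e x hx).div (h1.sqrt ?_) ?_
    · exact (hpos _).ne'
    · exact (Real.sqrt_pos.2 (hpos _)).ne'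
  · refine (closure_mono ?_).trans (hf i)
    intro x hx h0
    exact hx (by simp only [h0, zero_div])
  · simp only [div_pow]
    rw [← Finset.sum_div]
    simp only [Real.sq_sqrt (hpos x).le]
    exact div_self (hpos x).ne'

variable {N : ℕ} {χ : Fin N → Z → ℝ}

lemma sum_part (hχ : ∀ i, SmoothFn (n := n) (χ i)) (h1 : ∀ x, ∑ i, χ i x ^ 2 = 1)
    {D : Chart n Z → Cm n → ℝ} (hD : IsDensity D) :
    ∑ i, intX (fun e z => χ i (e.symm z) ^ 2 * D e z) = intX D := by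
  rw [← intX_sum _ fun i _ => hD.smul (f := fun x => χ i x ^ 2) ((SmoothFn.continuous (hχ i)).pow 2)]
  refine intX_congr fun e x hx => ?_
  rw [← Finset.sum_mul, h1, one_mul]

end part

section ims
variable {n : ℕ} {Z : Type*} [TopologicalSpace Z] [ChartedSpace (Cm n) Z]
  [IsManifold 𝓘(ℂ, Cm n) ω Z] [T2Space Z] [CompactSpace Z]
  {κ : Type*} [Fintype κ] [DecidableEq κ] {B : Bun n Z κ}
  {N : ℕ} {χ : Fin N → Z → ℝ}

lemma norm_smS_sq {f : Z → ℝ} (hf : SmoothFn (n := n) f) (s : B.S) :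
    ‖smS f hf s‖ ^ 2 = intX fun e z => f (e.symm z) ^ 2 * (B.den s.f s.f e z).re := by
  rw [Bun.norm_sq_eq]
  refine intX_congr fun e x hx => ?_
  rw [den_re, den_re, smS_at hf s hx, qf_smul, e.left_inv hx.2]

lemma sum_norm_smS (hχ : ∀ i, SmoothFn (n := n) (χ i)) (h1 : ∀ x, ∑ i, χ i x ^ 2 = 1) (s : B.S) :
    ∑ i, ‖smS (χ i) (hχ i) s‖ ^ 2 = ‖s‖ ^ 2 := by
  simp only [norm_smS_sq]
  rw [sum_part hχ h1 (Bun.isDensity_re s.isSec s.isSec), Bun.norm_sq_eq]

lemma inner_smS {f : Z → ℝ} (hf : SmoothFn (n := n) f) (s t : B.S) :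
    inner ℂ (smS f hf s) t = inner ℂ s (smS f hf t) := by
  rw [Bun.inner_eq, Bun.inner_eq]
  refine intC_congr fun e x hx => ?_
  unfold Bun.den
  rw [smS_at hf s hx, smS_at hf t hx, star_smul, smul_dotProduct, Matrix.mulVec_smul,
    dotProduct_smul]
  simp [Complex.conj_ofReal]

omit [IsManifold 𝓘(ℂ, Cm n) ω Z] [T2Space Z] [CompactSpace Z] in
lemma sum_smS_sq (hχ : ∀ i, SmoothFn (n := n) (χ i)) (h1 : ∀ x, ∑ i, χ i x ^ 2 = 1) (s : B.S) :
    ∑ i, smS (χ i) (hχ i) (smS (χ i) (hχ i) s) = s := by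
  refine Bun.S.ext_f fun e x hx => ?_
  rw [Bun.S.sum_f]
  simp only [Finset.sum_apply]
  rw [Finset.sum_congr rfl fun i _ => by rw [smS_at (hχ i) _ hx, smS_at (hχ i) _ hx, smul_smul],
    ← Finset.sum_smul]
  have : ∑ i, ((χ i x : ℝ) : ℂ) * ((χ i x : ℝ) : ℂ) = 1 := by
    rw [← Complex.ofReal_one, ← h1 x, Complex.ofReal_sum]
    refine Finset.sum_congr rfl fun i _ => ?_
    push_cast; ring
  rw [this, one_smul]

/-- the `IMS` localisation inequality -/
theorem ims (hχ : ∀ i, SmoothFn (n := n) (χ i)) (h1 : ∀ x, ∑ i, χ i x ^ 2 = 1)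
    (D : B.S →ₗ[ℂ] B.S) {C : Fin N → ℝ}
    (h2 : ∀ i s, ‖D (smS (χ i) (hχ i) s) - smS (χ i) (hχ i) (D s)‖ ≤ C i * ‖s‖)
    (h3 : ∀ i s, D (smS (χ i) (hχ i) (smS (χ i) (hχ i) s)) -
      smS (χ i) (hχ i) (D (smS (χ i) (hχ i) s)) =
        smS (χ i) (hχ i) (D (smS (χ i) (hχ i) s) - smS (χ i) (hχ i) (D s))) (s : B.S) :
    ∑ i, ‖D (smS (χ i) (hχ i) s)‖ ^ 2 ≤ ‖D s‖ ^ 2 + (∑ i, C i ^ 2) * ‖s‖ ^ 2 := by
  set m : Fin N → B.S → B.S := fun i => smS (χ i) (hχ i) with hm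
  have hsub : ∀ i (a b : B.S), m i (a - b) = m i a - m i b := fun i a b => by
    rw [sub_eq_add_neg, hm]
    simp only [smS_add]
    rw [show -b = (-1 : ℂ) • b by simp, smS_smul]
    simp [sub_eq_add_neg]
  -- `∑ χ_i [D, χ_i] s = 0`
  have hz : ∑ i, m i (D (m i s) - m i (D s)) = 0 := by
    have e1 : ∑ i, (D (m i (m i s)) - m i (D (m i s))) = ∑ i, m i (D (m i s) - m i (D s)) :=
      Finset.sum_congr rfl fun i _ => h3 i s
    have e2 : ∑ i, D (m i (m i s)) = D s := by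
      rw [← map_sum]; exact congrArg D (sum_smS_sq hχ h1 s)
    have e3 : ∑ i, m i (m i (D s)) = D s := sum_smS_sq hχ h1 (D s)
    have e4 : ∑ i, m i (D (m i s) - m i (D s)) = ∑ i, m i (D (m i s)) - D s := by
      rw [Finset.sum_congr rfl fun i _ => hsub i _ _, Finset.sum_sub_distrib, e3]
    rw [Finset.sum_sub_distrib, e2, e4] at e1
    rw [e4]
    have e5 : (2 : ℂ) • (∑ i, m i (D (m i s)) - D s) = 0 := by
      rw [two_smul]
      calc (∑ i, m i (D (m i s)) - D s) + (∑ i, m i (D (m i s)) - D s)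
          = (∑ i, m i (D (m i s)) - D s) - (D s - ∑ i, m i (D (m i s))) := by abel
        _ = 0 := by rw [e1]; abel
    exact (smul_eq_zero.1 e5).resolve_left two_ne_zero
  have hcross : ∑ i, (inner ℂ (m i (D s)) (D (m i s) - m i (D s))).re = 0 := by
    have e6 : ∀ i, inner ℂ (m i (D s)) (D (m i s) - m i (D s)) =
        inner ℂ (D s) (m i (D (m i s) - m i (D s))) := fun i => inner_smS (hχ i) _ _
    rw [← Complex.re_sum, Finset.sum_congr rfl fun i _ => e6 i, ← inner_sum, hz, inner_zero_right]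
    simp
  calc ∑ i, ‖D (m i s)‖ ^ 2
      = ∑ i, (‖m i (D s)‖ ^ 2 + 2 * (inner ℂ (m i (D s)) (D (m i s) - m i (D s))).re +
          ‖D (m i s) - m i (D s)‖ ^ 2) := by
        refine Finset.sum_congr rfl fun i _ => ?_
        have := norm_add_sq (𝕜 := ℂ) (m i (D s)) (D (m i s) - m i (D s))
        rw [add_sub_cancel] at this
        exact this
    _ = ∑ i, ‖m i (D s)‖ ^ 2 + ∑ i, ‖D (m i s) - m i (D s)‖ ^ 2 := by
        rw [Finset.sum_add_distrib, Finset.sum_add_distrib, ← Finset.mul_sum, hcross]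
        ring
    _ ≤ ‖D s‖ ^ 2 + (∑ i, C i ^ 2) * ‖s‖ ^ 2 := by
        rw [sum_norm_smS hχ h1 (D s), Finset.sum_mul]
        gcongr with i _
        rw [← mul_pow]
        exact pow_le_pow_left₀ (norm_nonneg _) (h2 i s) 2

end ims

section glob
variable {n : ℕ} {Z : Type*} [TopologicalSpace Z] [ChartedSpace (Cm n) Z]
  [IsManifold 𝓘(ℂ, Cm n) ω Z] [T2Space Z] [CompactSpace Z]
  {κ : Type*} [Fintype κ] [DecidableEq κ]

/-- The point `x` is good: the potential `V` is positive there, or the first order part `HR` is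
positive at `x` after adding the divergence of a contracted field. -/
def Good (w : Chart n Z → Cm n → Matrix (Fin n) (Fin n) ℂ) (B : Bun n Z κ)
    (HR : Chart n Z → Cm n → Matrix κ κ ℂ) (V : Z → ℝ) (x : Z) : Prop :=
  0 < V x ∨ ∃ e, At e x ∧ ∃ (v : Cm n → Cm n) (S : Matrix (Fin n) (Fin n) ℂ) (c : ℝ), 0 < c ∧
    ContDiffAt ℝ 1 v (e x) ∧ (∀ᶠ z in 𝓝 (e x), qf (w e z)ᵀ (v z) ≤ V (e.symm z)) ∧
    (∀ a, qf (w e (e x))ᵀ (S *ᵥ a) ≤ qf (w e (e x))ᵀ a) ∧
    ∀ a, c * qf (B.H e (e x)) a ≤ qf (HR e (e x)) a +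
      (∑ b, dz b (fun y => (S *ᵥ v y) b) (e x)).re * qf (B.H e (e x)) a

variable {w : Chart n Z → Cm n → Matrix (Fin n) (Fin n) ℂ} {B : Bun n Z κ}
  {HR : Chart n Z → Cm n → Matrix κ κ ℂ} {V : Z → ℝ}

omit [IsManifold 𝓘(ℂ, Cm n) ω Z] [T2Space Z] [CompactSpace Z] in
/-- the local lower bound near a good point -/
lemma exists_local (hw : IsKahler w) (hR : ∀ e x, At e x → MC 1 (HR e) (e x))
    (hV : Continuous V) {x : Z} (hx : Good w B HR V x) :
    ∃ e, At e x ∧ ∃ r > 0, ∃ c > 0, ∃ t₀ : ℝ, ∀ t : ℝ, t₀ ≤ t → ∀ u : Cm n → κ → ℂ,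
      ContDiff ℝ 2 u → HasCompactSupport u → tsupport u ⊆ Metric.ball (e x) r →
      c * t * (∫ z, qf (B.H e z) (u z)) ≤ (∫ z, en (w e z)⁻¹ (B.H e z) (dV u z)) +
        t * (∫ z, qf (HR e z) (u z)) + t ^ 2 * ∫ z, V (e.symm z) * qf (B.H e z) (u z) := by
  have hwm : ∀ e, At e x → MC 1 (w e) (e x) := fun e he i j =>
    (hw.smooth e x he i j).of_le (by norm_cast)
  have hHm : ∀ e, At e x → MC 1 (B.H e) (e x) := fun e he i j =>
    (B.H_smooth e x he i j).of_le (by norm_cast)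
  have hVc : ∀ e : Chart n Z, At e x → ∀ᶠ z in 𝓝 (e x), ContinuousAt (fun z => V (e.symm z)) z :=
    fun e he => by
      filter_upwards [e.open_target.mem_nhds (e.map_source he.2)] with z hz
      exact hV.continuousAt.comp (e.continuousAt_symm hz)
  have hnb : ∀ e : Chart n Z, At e x → ∀ᶠ z in 𝓝 (e x), (w e z).PosDef ∧ (B.H e z).PosDef :=
    fun e he => by
      filter_upwards [e.open_target.mem_nhds (e.map_source he.2)] with z hz
      have hz' : At e (e.symm z) := ⟨he.1, e.map_target hz⟩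
      have h1 := hw.posDef e (e.symm z) hz'
      have h2 := B.H_pos e (e.symm z) hz'
      rw [e.right_inv hz] at h1 h2
      exact ⟨h1, h2⟩
  rcases hx with hx | ⟨e, he, v, S, c, hc, hv, hvV, hS, hP⟩
  · obtain ⟨e, he⟩ : ∃ e : Chart n Z, At e x := ⟨chartAt (Cm n) x, chart_mem_atlas _ x,
      mem_chart_source _ x⟩
    have hx' : 0 < (fun z => V (e.symm z)) (e x) := by
      show 0 < V (e.symm (e x))
      rwa [e.left_inv he.2]
    obtain ⟨r, hr, t₀, h⟩ := local_bound_pos (hwm e he) (hw.posDef e x he)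
      ((hnb e he).mono fun z h => h.1) ((hnb e he).mono fun z h => h.2) (hHm e he)
      (B.H_pos e x he) (hR e x he) (hVc e he) hx'
    refine ⟨e, he, r, hr, 1, one_pos, t₀, fun t ht u hu hcs hsupp => ?_⟩
    rw [one_mul]
    exact h t ht u hu hcs hsupp
  · obtain ⟨r, hr, h⟩ := local_bound (hwm e he) (hw.posDef e x he) (hHm e he) (B.H_pos e x he)
      (hR e x he) (hVc e he) hv hvV hc hS hP
    exact ⟨e, he, r, hr, c / 2, half_pos hc, 0, h⟩

/-- **Global lower bound.** -/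
theorem glob_bound (hw : IsKahler w) (hR : ∀ e x, At e x → MC 1 (HR e) (e x))
    (hV : Continuous V) (hgood : ∀ x, Good w B HR V x) (D : B.S →ₗ[ℂ] B.S)
    (hden : ∀ s : B.S, IsDensity fun e z => en (w e z)⁻¹ (B.H e z) (dV (s.f e) z))
    (hbkn : ∀ s : B.S, intX (fun e z => en (w e z)⁻¹ (B.H e z) (dV (s.f e) z)) ≤ ‖D s‖ ^ 2)
    (h2 : ∀ (χ : Z → ℝ) (hχ : SmoothFn (n := n) χ), ∃ C : ℝ, ∀ s : B.S,
      ‖D (smS χ hχ s) - smS χ hχ (D s)‖ ≤ C * ‖s‖)
    (h3 : ∀ (χ : Z → ℝ) (hχ : SmoothFn (n := n) χ) (s : B.S),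
      D (smS χ hχ (smS χ hχ s)) - smS χ hχ (D (smS χ hχ s)) =
        smS χ hχ (D (smS χ hχ s) - smS χ hχ (D s))) :
    ∃ c > 0, ∃ t₀ : ℝ, ∀ t : ℝ, t₀ ≤ t → ∀ s : B.S,
      IsDensity (fun e z => qf (HR e z) (s.f e z)) →
      c * t * ‖s‖ ^ 2 ≤ ‖D s‖ ^ 2 + t * intX (fun e z => qf (HR e z) (s.f e z)) +
        t ^ 2 * intX (fun e z => V (e.symm z) * (B.den s.f s.f e z).re) := by
  choose e he r hr c hc t₀ hloc using fun x => exists_local hw hR hV (hgood x)
  obtain ⟨N, p, χ, hχ, hsupp, hsum⟩ := exists_sq_part (n := n)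
    (fun x => (e x).source ∩ (e x) ⁻¹' Metric.ball (e x x) (r x))
    (fun x => (e x).isOpen_inter_preimage Metric.isOpen_ball)
    (fun x => ⟨(he x).2, Metric.mem_ball_self (hr x)⟩)
  choose C hC using fun i => h2 (χ i) (hχ i)
  -- constants
  set c₁ : ℝ := (1 + ∑ i, (c (p i))⁻¹)⁻¹ with hc₁
  have hsum0 : 0 < 1 + ∑ i, (c (p i))⁻¹ := by
    have : 0 ≤ ∑ i, (c (p i))⁻¹ := Finset.sum_nonneg fun i _ => (inv_pos.2 (hc _)).le
    linarith
  have hc₁0 : 0 < c₁ := inv_pos.2 hsum0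
  have hc₁le : ∀ i, c₁ ≤ c (p i) := fun i => by
    rw [hc₁]
    refine inv_le_of_inv_le₀ (hc _) ?_
    have : (c (p i))⁻¹ ≤ ∑ i, (c (p i))⁻¹ :=
      Finset.single_le_sum (f := fun i => (c (p i))⁻¹) (fun j _ => (inv_pos.2 (hc _)).le)
        (Finset.mem_univ i)
    linarith
  set C₁ : ℝ := ∑ i, C i ^ 2 with hC₁
  have hC₁0 : 0 ≤ C₁ := Finset.sum_nonneg fun i _ => sq_nonneg _
  set t₁ : ℝ := ∑ i, |t₀ (p i)| + 2 * C₁ / c₁ with ht₁
  refine ⟨c₁ / 2, half_pos hc₁0, t₁, fun t ht s hRd => ?_⟩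
  have hT0 : 0 ≤ ∑ i, |t₀ (p i)| := Finset.sum_nonneg fun i _ => abs_nonneg _
  have hCc : 0 ≤ 2 * C₁ / c₁ := by positivity
  have ht0 : 0 ≤ t := by linarith
  have hti : ∀ i, t₀ (p i) ≤ t := fun i => by
    have h1 : |t₀ (p i)| ≤ ∑ i, |t₀ (p i)| :=
      Finset.single_le_sum (f := fun i => |t₀ (p i)|) (fun j _ => abs_nonneg _) (Finset.mem_univ i)
    have h2 := le_abs_self (t₀ (p i))
    linarith
  have htC : C₁ ≤ c₁ / 2 * t := by
    have h1 : 2 * C₁ / c₁ ≤ t := by linarith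
    rw [div_le_iff₀ hc₁0] at h1
    linarith
  -- densities
  have hdn : IsDensity fun e z => (B.den s.f s.f e z).re := Bun.isDensity_re s.isSec s.isSec
  have hVd : IsDensity fun e z => V (e.symm z) * (B.den s.f s.f e z).re := hdn.smul hV
  -- one piece
  have piece : ∀ i, c₁ * t * intX (fun e z => χ i (e.symm z) ^ 2 * (B.den s.f s.f e z).re) ≤
      ‖D (smS (χ i) (hχ i) s)‖ ^ 2 +
        t * intX (fun e z => χ i (e.symm z) ^ 2 * qf (HR e z) (s.f e z)) +
        t ^ 2 * intX (fun e z => χ i (e.symm z) ^ 2 * (V (e.symm z) *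
          (B.den s.f s.f e z).re)) := by
    intro i
    set x := p i with hx
    set E := e x with hE
    have hEa : E ∈ atlas (Cm n) Z := (he x).1
    set K : Set Z := tsupport (χ i) with hK
    have hKc : IsClosed K := isClosed_tsupport _
    have hKe : K ⊆ E.source := (hsupp i).trans inter_subset_left
    set u : B.S := smS (χ i) (hχ i) s with hu
    have hχ0 : ∀ y, y ∉ K → χ i y = 0 := fun y hy => image_eq_zero_of_notMem_tsupport hy
    have h0 : ∀ e' y, At e' y → y ∉ K → u.f e' (e' y) = 0 := fun e' y hy hyK => by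
      rw [hu, smS_at (hχ i) s hy, hχ0 y hyK, Complex.ofReal_zero, zero_smul]
    have husm : ContDiff ℝ 2 (u.f E) := (smoothS hEa hKc hKe u h0).of_le (by norm_cast)
    have hucs : HasCompactSupport (u.f E) := hcsS hEa hKc hKe u h0
    have huts : tsupport (u.f E) ⊆ Metric.ball (E x) (r x) := by
      refine (tsuppS hEa hKc hKe u h0).trans ?_
      rintro _ ⟨y, hy, rfl⟩
      exact (hsupp i hy).2
    have huz : ∀ z ∈ E.target, u.f E z = ((χ i (E.symm z) : ℝ) : ℂ) • s.f E z := fun z hz =>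
      smS_z (hχ i) s hEa hz
    have huz0 : ∀ z, z ∉ E.target → u.f E z = 0 := fun z hz => u.off fun h => hz h.2
    have key := hloc x t (hti i) (u.f E) husm hucs huts
    have i1 : intX (fun e z => χ i (e.symm z) ^ 2 * (B.den s.f s.f e z).re) =
        ∫ z, qf (B.H E z) (u.f E z) := by
      refine intX_chart hEa hKc hKe (hdn.smul (f := fun x => χ i x ^ 2)
        ((SmoothFn.continuous (hχ i)).pow 2)) (fun e' y hy hyK => ?_) (fun z hz => ?_) fun z hz => ?_
      · simp only [e'.left_inv hy.2, hχ0 y hyK]; ring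
      · rw [huz z hz, qf_smul, den_re]
      · rw [huz0 z hz, qf_zero]
    have i2 : intX (fun e z => χ i (e.symm z) ^ 2 * qf (HR e z) (s.f e z)) =
        ∫ z, qf (HR E z) (u.f E z) := by
      refine intX_chart hEa hKc hKe (hRd.smul (f := fun x => χ i x ^ 2)
        ((SmoothFn.continuous (hχ i)).pow 2)) (fun e' y hy hyK => ?_) (fun z hz => ?_) fun z hz => ?_
      · simp only [e'.left_inv hy.2, hχ0 y hyK]; ring
      · rw [huz z hz, qf_smul]
      · rw [huz0 z hz, qf_zero]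
    have i3 : intX (fun e z => χ i (e.symm z) ^ 2 * (V (e.symm z) * (B.den s.f s.f e z).re)) =
        ∫ z, V (E.symm z) * qf (B.H E z) (u.f E z) := by
      refine intX_chart hEa hKc hKe (hVd.smul (f := fun x => χ i x ^ 2)
        ((SmoothFn.continuous (hχ i)).pow 2)) (fun e' y hy hyK => ?_) (fun z hz => ?_) fun z hz => ?_
      · simp only [e'.left_inv hy.2, hχ0 y hyK]; ring
      · rw [huz z hz, qf_smul, den_re]; ring
      · rw [huz0 z hz, qf_zero, mul_zero]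
    have hdV0 : ∀ (e' : Chart n Z) (z : Cm n), (∀ᶠ z' in 𝓝 z, u.f e' z' = 0) →
        dV (u.f e') z = 0 := fun e' z h => by
      funext b j
      simp only [dV, Pi.zero_apply]
      have h5 : (fun y => u.f e' y j) =ᶠ[𝓝 z] fun _ => 0 := h.mono fun y hy => congrFun hy j
      unfold dzb
      rw [h5.fderiv_eq]
      simp
    have hen0 : ∀ (W : Matrix (Fin n) (Fin n) ℂ) (H : Matrix κ κ ℂ),
        en W H (0 : Fin n → κ → ℂ) = 0 := fun W H => by simp [en]
    have i4 : intX (fun e z => en (w e z)⁻¹ (B.H e z) (dV (u.f e) z)) =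
        ∫ z, en (w E z)⁻¹ (B.H E z) (dV (u.f E) z) := by
      refine intX_chart hEa hKc hKe (hden u) (fun e' y hy hyK => ?_) (fun z hz => rfl)
        fun z hz => ?_
      · have hnear : ∀ᶠ z' in 𝓝 (e' y), u.f e' z' = 0 := by
          have h1 : ContinuousAt e'.symm (e' y) := e'.continuousAt_symm (e'.map_source hy.2)
          have h2 : Kᶜ ∈ 𝓝 (e'.symm (e' y)) := by
            rw [e'.left_inv hy.2]; exact hKc.isOpen_compl.mem_nhds hyK
          filter_upwards [h1.preimage_mem_nhds h2,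
            e'.open_target.mem_nhds (e'.map_source hy.2)] with z' hz' hzt
          have := h0 e' (e'.symm z') ⟨hy.1, e'.map_target hzt⟩ hz'
          rwa [e'.right_inv hzt] at this
        rw [hdV0 e' _ hnear, hen0]
      · have hz' : z ∉ E '' K := by
          rintro ⟨y, hy, rfl⟩
          exact hz (E.map_source (hKe hy))
        have hnear : ∀ᶠ z' in 𝓝 z, u.f E z' = 0 := by
          filter_upwards [(compact_image hKc hKe).isClosed.isOpen_compl.mem_nhds hz'] with y hy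
          exact suppS hEa u h0 hy
        rw [hdV0 E _ hnear, hen0]
    rw [i1, i2, i3]
    have hq0 : 0 ≤ ∫ z, qf (B.H E z) (u.f E z) := by
      rw [← i1]
      exact intX_nonneg fun e' y hy => mul_nonneg (sq_nonneg _) (Bun.den_self_nonneg hy)
    have k1 : c₁ * t * (∫ z, qf (B.H E z) (u.f E z)) ≤
        c x * t * ∫ z, qf (B.H E z) (u.f E z) := by
      have := hc₁le i
      gcongr
    have k2 : (∫ z, en (w E z)⁻¹ (B.H E z) (dV (u.f E) z)) ≤ ‖D u‖ ^ 2 := by
      rw [← i4]; exact hbkn u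
    linarith
  -- sum of the pieces
  have hs := Finset.sum_le_sum fun i (_ : i ∈ Finset.univ) => piece i
  rw [← Finset.mul_sum, sum_part hχ hsum hdn, ← Bun.norm_sq_eq, Finset.sum_add_distrib,
    Finset.sum_add_distrib, ← Finset.mul_sum, ← Finset.mul_sum, sum_part hχ hsum hRd,
    sum_part hχ hsum hVd] at hs
  have hims := ims hχ hsum D hC (fun i s => h3 (χ i) (hχ i) s) s
  have hfin : C₁ * ‖s‖ ^ 2 ≤ c₁ / 2 * t * ‖s‖ ^ 2 := by gcongr
  linarith

end glob

end Vale.Agent.P299.H721
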