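import Vale.Agent.P299.H721.Flat
import Vale.Agent.P272.K.C2.Mat
import Mathlib.Analysis.Matrix.Order

/-!
# P299, INDEX-LOWER: quadratic forms depending continuously on a point
-/

open scoped ContDiff Topology ComplexConjugate Matrix ComplexOrder
open MeasureTheory Set Filter
open Vale.Agent.P272.K Vale.Agent.P272.K.INT Vale.Agent.P272.K.C2

noncomputable section

namespace Vale.Agent.P299.H721

variable {n : ℕ} {ι : Type*} [Fintype ι]

/-- the quadratic form of the matrix `M` -/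
def qf (M : Matrix ι ι ℂ) (x : ι → ℂ) : ℝ := (star x ⬝ᵥ M *ᵥ x).re

/-- the quadratic form `∑ W_{bl} ⟨ξ_b, ξ_l⟩_H` -/
def en (W : Matrix (Fin n) (Fin n) ℂ) (H : Matrix ι ι ℂ) (ξ : Fin n → ι → ℂ) : ℝ :=
  (∑ b, ∑ l, W b l * (star (ξ l) ⬝ᵥ H *ᵥ ξ b)).re

lemma qf_zero (M : Matrix ι ι ℂ) : qf M 0 = 0 := by simp [qf]

lemma qf_add_mat (M N : Matrix ι ι ℂ) (x : ι → ℂ) : qf (M + N) x = qf M x + qf N x := by
  simp [qf, Matrix.add_mulVec]

lemma qf_sub_mat (M N : Matrix ι ι ℂ) (x : ι → ℂ) : qf (M - N) x = qf M x - qf N x := by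
  simp [qf, Matrix.sub_mulVec]

lemma qf_smul_mat (r : ℝ) (M : Matrix ι ι ℂ) (x : ι → ℂ) : qf ((r : ℂ) • M) x = r * qf M x := by
  simp [qf, Matrix.smul_mulVec]

lemma qf_nonneg {M : Matrix ι ι ℂ} (hM : M.PosSemidef) (x : ι → ℂ) : 0 ≤ qf M x :=
  hM.re_dotProduct_nonneg x

lemma qf_conj {κ : Type*} [Fintype κ] (C : Matrix κ ι ℂ) (x : ι → ℂ) :
    qf (Cᴴ * C) x = ∑ c, ‖(C *ᵥ x) c‖ ^ 2 := by
  have : star x ⬝ᵥ (Cᴴ * C) *ᵥ x = star (C *ᵥ x) ⬝ᵥ (C *ᵥ x) := by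
    rw [← Matrix.mulVec_mulVec, Matrix.star_mulVec, Matrix.dotProduct_mulVec,
      Matrix.dotProduct_mulVec]
  rw [qf, this, dotProduct, Complex.re_sum]
  refine Finset.sum_congr rfl fun c _ => ?_
  rw [Pi.star_apply, Complex.star_def, mul_comm, Complex.mul_conj']
  norm_cast

open scoped MatrixOrder Matrix.Norms.L2Operator in
lemma exists_factor [DecidableEq ι] {M : Matrix ι ι ℂ} (hM : M.PosSemidef) :
    ∃ C : Matrix ι ι ℂ, M = Cᴴ * C := by
  obtain ⟨R, hR⟩ := CStarAlgebra.nonneg_iff_eq_star_mul_self.mp hM.nonneg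
  exact ⟨R, by rw [hR, Matrix.star_eq_conjTranspose]⟩

/-- the energy form is the quadratic form of a Kronecker product -/
lemma en_eq_qf (W : Matrix (Fin n) (Fin n) ℂ) (H : Matrix ι ι ℂ) (ξ : Fin n → ι → ℂ) :
    en W H ξ = qf (Matrix.kroneckerMap (· * ·) Wᵀ H) (fun p : Fin n × ι => ξ p.1 p.2) := by
  unfold en qf
  congr 1
  simp only [dotProduct, Matrix.mulVec, Fintype.sum_prod_type, Matrix.kroneckerMap_apply,
    Matrix.transpose_apply, Pi.star_apply, Finset.mul_sum]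
  rw [Finset.sum_comm]
  refine Finset.sum_congr rfl fun l _ => ?_
  rw [Finset.sum_comm]
  refine Finset.sum_congr rfl fun i _ => ?_
  refine Finset.sum_congr rfl fun b _ => ?_
  refine Finset.sum_congr rfl fun j _ => ?_
  ring

lemma continuous_qf (M : Matrix ι ι ℂ) : Continuous fun x : ι → ℂ => qf M x := by
  refine Complex.continuous_re.comp ?_
  simp only [dotProduct, Matrix.mulVec]
  fun_prop

/-- coercivity of a positive definite matrix -/
theorem qf_coercive {P : Matrix ι ι ℂ} (hP : P.PosDef) :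
    ∃ c : ℝ, 0 < c ∧ ∀ x : ι → ℂ, c * ‖x‖ ^ 2 ≤ qf P x := by
  have hK : IsCompact (Metric.sphere (0 : ι → ℂ) 1) := isCompact_sphere _ _
  have hpos : ∀ x ∈ Metric.sphere (0 : ι → ℂ) 1, 0 < qf P x := by
    intro x hx
    have hx0 : x ≠ 0 := by
      rintro rfl; simp at hx
    exact (Complex.pos_iff.1 (hP.dotProduct_mulVec_pos hx0)).1
  obtain ⟨c, hc, hc2⟩ : ∃ c : ℝ, 0 < c ∧ ∀ x ∈ Metric.sphere (0 : ι → ℂ) 1, c ≤ qf P x := by
    rcases (Metric.sphere (0 : ι → ℂ) 1).eq_empty_or_nonempty with h | h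
    · exact ⟨1, one_pos, by simp [h]⟩
    · obtain ⟨x0, hx0, hmin⟩ := hK.exists_isMinOn h (continuous_qf P).continuousOn
      exact ⟨_, hpos x0 hx0, fun x hx => hmin hx⟩
  refine ⟨c, hc, fun x => ?_⟩
  by_cases hx : x = 0
  · subst hx; simp [qf]
  have hn : 0 < ‖x‖ := norm_pos_iff.2 hx
  have h1 := hc2 ((‖x‖⁻¹ : ℝ) • x) (by simp [norm_smul, hn.ne'])
  have h2 : qf P ((‖x‖⁻¹ : ℝ) • x) = ‖x‖⁻¹ ^ 2 * qf P x := by
    have e : ((‖x‖⁻¹ : ℝ) • x) = ((‖x‖⁻¹ : ℝ) : ℂ) • x := by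
      ext i; simp
    have : star (((‖x‖⁻¹ : ℝ) : ℂ) • x) ⬝ᵥ P *ᵥ (((‖x‖⁻¹ : ℝ) : ℂ) • x) =
        ((‖x‖⁻¹ ^ 2 : ℝ) : ℂ) * (star x ⬝ᵥ P *ᵥ x) := by
      rw [star_smul, smul_dotProduct, Matrix.mulVec_smul, dotProduct_smul]
      simp only [smul_eq_mul, Complex.star_def, Complex.conj_ofReal]
      push_cast; ring
    rw [qf, e, this, Complex.re_ofReal_mul, qf]
  rw [h2] at h1
  have h3 : ‖x‖ ^ 2 * (‖x‖⁻¹ ^ 2 * qf P x) = qf P x := by
    field_simp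
  have h4 := mul_le_mul_of_nonneg_left h1 (sq_nonneg ‖x‖)
  rw [h3] at h4
  linarith

theorem abs_qf_le {D : Matrix ι ι ℂ} {ε : ℝ} (hD : ∀ i j, ‖D i j‖ ≤ ε) (x : ι → ℂ) :
    |qf D x| ≤ (Fintype.card ι : ℝ) ^ 2 * ε * ‖x‖ ^ 2 := by
  have h1 : star x ⬝ᵥ D *ᵥ x = ∑ i, ∑ j, star (x i) * (D i j * x j) := by
    simp [dotProduct, Matrix.mulVec, Finset.mul_sum]
  refine (Complex.abs_re_le_norm _).trans ?_
  rw [h1]
  calc ‖∑ i, ∑ j, star (x i) * (D i j * x j)‖ ≤ ∑ _i : ι, ∑ _j : ι, ‖x‖ * (ε * ‖x‖) := by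
        refine (norm_sum_le _ _).trans (Finset.sum_le_sum fun i _ => (norm_sum_le _ _).trans
          (Finset.sum_le_sum fun j _ => ?_))
        rw [norm_mul, norm_mul, norm_star]
        have h2 := norm_le_pi_norm x i
        have h3 := norm_le_pi_norm x j
        have h4 := hD i j
        have h5 : 0 ≤ ε := (norm_nonneg _).trans h4
        gcongr
    _ = (Fintype.card ι : ℝ) ^ 2 * ε * ‖x‖ ^ 2 := by
        simp [Finset.sum_const]; ring

/-- continuity of a family of quadratic forms, measured by a positive definite one -/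
theorem qf_near {E : Type*} [TopologicalSpace E] {M : E → Matrix ι ι ℂ} {z₀ : E}
    {P : Matrix ι ι ℂ} (hM : ∀ i j, ContinuousAt (fun z => M z i j) z₀) (hP : P.PosDef)
    {ε : ℝ} (hε : 0 < ε) :
    ∀ᶠ z in 𝓝 z₀, ∀ x, |qf (M z) x - qf (M z₀) x| ≤ ε * qf P x := by
  obtain ⟨c, hc, hcx⟩ := qf_coercive hP
  set δ : ℝ := ε * c / ((Fintype.card ι : ℝ) ^ 2 + 1) with hδ
  have hδ0 : 0 < δ := by positivity
  have h1 : ∀ᶠ z in 𝓝 z₀, ∀ i j, ‖(M z - M z₀) i j‖ ≤ δ := by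
    refine Filter.eventually_all.2 fun i => Filter.eventually_all.2 fun j => ?_
    have := Metric.tendsto_nhds.1 (hM i j) δ hδ0
    filter_upwards [this] with z hz
    rw [dist_eq_norm] at hz
    simpa using hz.le
  filter_upwards [h1] with z hz x
  rw [← qf_sub_mat]
  refine (abs_qf_le hz x).trans ?_
  have h2 := hcx x
  have h3 : (Fintype.card ι : ℝ) ^ 2 * δ ≤ ε * c := by
    rw [hδ, ← mul_div_assoc, div_le_iff₀ (by positivity)]
    nlinarith [sq_nonneg (Fintype.card ι : ℝ), mul_pos hε hc]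
  calc (Fintype.card ι : ℝ) ^ 2 * δ * ‖x‖ ^ 2 ≤ (ε * c) * ‖x‖ ^ 2 := by gcongr
    _ = ε * (c * ‖x‖ ^ 2) := by ring
    _ ≤ ε * qf P x := by gcongr

theorem en_near {E : Type*} [TopologicalSpace E] [DecidableEq ι] {W : E → Matrix (Fin n) (Fin n) ℂ}
    {H : E → Matrix ι ι ℂ} {z₀ : E} (hW : ∀ i j, ContinuousAt (fun z => W z i j) z₀)
    (hH : ∀ i j, ContinuousAt (fun z => H z i j) z₀) (hW0 : (W z₀).PosDef) (hH0 : (H z₀).PosDef)
    {ε : ℝ} (hε : 0 < ε) :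
    ∀ᶠ z in 𝓝 z₀, ∀ ξ : Fin n → ι → ℂ,
      |en (W z) (H z) ξ - en (W z₀) (H z₀) ξ| ≤ ε * en (W z₀) (H z₀) ξ := by
  have hP : (Matrix.kroneckerMap (· * ·) (W z₀)ᵀ (H z₀)).PosDef := hW0.transpose.kronecker hH0
  have hM : ∀ p q : Fin n × ι, ContinuousAt
      (fun z => Matrix.kroneckerMap (· * ·) (W z)ᵀ (H z) p q) z₀ := by
    intro p q
    simp only [Matrix.kroneckerMap_apply, Matrix.transpose_apply]
    exact (hW _ _).mul (hH _ _)
  filter_upwards [qf_near hM hP hε] with z hz ξ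
  simp only [en_eq_qf]
  exact hz _

lemma en_nonneg [DecidableEq ι] {W : Matrix (Fin n) (Fin n) ℂ} {H : Matrix ι ι ℂ}
    (hW : W.PosSemidef) (hH : H.PosSemidef) (ξ : Fin n → ι → ℂ) : 0 ≤ en W H ξ := by
  rw [en_eq_qf]
  exact qf_nonneg (hW.transpose.kronecker hH) _

/-- the energy form in terms of a factorisation of `W` -/
lemma en_factor {K : Matrix (Fin n) (Fin n) ℂ} {W : Matrix (Fin n) (Fin n) ℂ}
    (hW : ∀ b l, W b l = ∑ m, K m b * conj (K m l)) (H : Matrix ι ι ℂ) (ξ : Fin n → ι → ℂ) :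
    en W H ξ = ∑ m, qf H (∑ b, K m b • ξ b) := by
  unfold en qf
  rw [← Complex.re_sum]
  congr 1
  simp only [hW, Finset.sum_mul]
  calc ∑ b, ∑ l, ∑ m, K m b * conj (K m l) * (star (ξ l) ⬝ᵥ H *ᵥ ξ b)
      = ∑ m, ∑ b, ∑ l, K m b * conj (K m l) * (star (ξ l) ⬝ᵥ H *ᵥ ξ b) := by
        rw [Finset.sum_comm]
        conv_rhs => rw [Finset.sum_comm]
        conv_rhs => enter [2, b]; rw [Finset.sum_comm]
        rw [Finset.sum_comm]
    _ = ∑ m, star (∑ b, K m b • ξ b) ⬝ᵥ H *ᵥ (∑ b, K m b • ξ b) := by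
        refine Finset.sum_congr rfl fun m _ => ?_
        rw [star_sum, sum_dotProduct]
        rw [Finset.sum_comm]
        refine Finset.sum_congr rfl fun l _ => ?_
        rw [Matrix.mulVec_sum, dotProduct_sum]
        refine Finset.sum_congr rfl fun b _ => ?_
        rw [star_smul, smul_dotProduct, Matrix.mulVec_smul, dotProduct_smul]
        simp only [smul_eq_mul, Complex.star_def]
        ring

end Vale.Agent.P299.H721
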