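import Vale.Agent.P299.H835.IX.KzGlob
import Vale.Agent.P299.H954.IX.Glob
import Vale.Agent.P299.H721.Bd
import Vale.Agent.P299.H721.EnS

/-!
# P299, INDEX-LOWER: the operator `D' + δ` on the total bundle

symmetry, Bochner-Kodaira-Nakano inequality, first order form.
-/

open scoped Manifold ContDiff ComplexOrder Topology Matrix ComplexConjugate Kronecker
open MeasureTheory Set Filter
open Vale.Agent.P272.K Vale.Agent.P272.K.INT Vale.Agent.P272.K.C2 Vale.Agent.P299.IX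
open Vale.Agent.P299.IX.Kz Vale.Agent.P299.IX.Fock

noncomputable section

namespace Vale.Agent.P299.H721

section sum
variable {n : ℕ} {Z : Type*} [TopologicalSpace Z] [ChartedSpace (Cm n) Z]
  [IsManifold 𝓘(ℂ, Cm n) ω Z] [T2Space Z] [CompactSpace Z]

lemma intC_sum' {ι : Type*} (t : Finset ι) {F : ι → Chart n Z → Cm n → ℂ}
    (hF : ∀ i ∈ t, IsDen (F i)) :
    IX.intC (fun e z => ∑ i ∈ t, F i e z) = ∑ i ∈ t, IX.intC (F i) := by
  apply Complex.ext
  · rw [IX.intC_re, Complex.re_sum]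
    simp only [Complex.re_sum]
    rw [intX_sum t fun i hi => (hF i hi).re]
    exact Finset.sum_congr rfl fun i _ => (IX.intC_re _).symm
  · rw [IX.intC_im, Complex.im_sum]
    simp only [Complex.im_sum]
    rw [intX_sum t fun i hi => (hF i hi).im]
    exact Finset.sum_congr rfl fun i _ => (IX.intC_im _).symm

end sum

section tot
variable {n N k0 : ℕ} {Z : Type*} [TopologicalSpace Z] [ChartedSpace (Cm n) Z]
  [IsManifold 𝓘(ℂ, Cm n) ω Z] {w : D.FormM n Z} {hw : IsKahler w}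

lemma isSec_blk' (s : (Btot hw k0 N).S) (S : FI N) :
    IX.IsSec (1 + S.card * k0) (Bun.blk s.f S) := isSec_FB_iff.1 (Bun.isSec_blk s.isSec S)

/-- `D' + δ` in the charts -/
def TotOp (Dt : (Btot hw k0 N).S → (Btot hw k0 N).S) : Prop :=
  ∀ (s : (Btot hw k0 N).S) (e : Chart n Z) (x : Z), At e x →
    (Dt s).f e (e x) = Kz.DDt k0 (w e) (s.f e) (e x)

variable {Dt : (Btot hw k0 N).S →ₗ[ℂ] (Btot hw k0 N).S}

lemma blk_Dt (hD : TotOp Dt) (s : (Btot hw k0 N).S) (S : FI N) {e : Chart n Z} {x : Z}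
    (hx : At e x) : Bun.blk (Dt s).f S e (e x) =
      DDX (1 + S.card * k0) w (Bun.blk s.f S) e (e x) := by
  funext I
  exact congrFun (hD s e x hx) (I, S)

lemma en_tot (u : Chart n Z → Cm n → FI n × FI N → ℂ) (e : Chart n Z) (z : Cm n) :
    en (w e z)⁻¹ ((Btot hw k0 N).H e z) (dV (u e) z) =
      ∑ S : FI N, (gradbX (1 + S.card * k0) w (Bun.blk u S) (Bun.blk u S) e z).re := by
  have h1 : (Btot hw k0 N).H e z =
      Matrix.blockDiagonal fun S : FI N => (FB (1 + S.card * k0) hw).H e z := rfl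
  rw [h1, en_blockDiagonal]
  exact Finset.sum_congr rfl fun S _ => en_FB (hw := hw) (Bun.blk u S) e z

variable [T2Space Z] [CompactSpace Z]

lemma dens_gradb (s : (Btot hw k0 N).S) (S : FI N) : IsDensity fun e z =>
    (gradbX (1 + S.card * k0) w (Bun.blk s.f S) (Bun.blk s.f S) e z).re := by
  have h := isSec_iff (w := w).1 (isSec_blk' s S)
  rw [gradbX_eq]
  exact (G.dens_gradbL hw (isHLB_K _ hw) h h).re

/-- the energy density of the total bundle is a density -/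
theorem isDensity_en (s : (Btot hw k0 N).S) :
    IsDensity fun e z => en (w e z)⁻¹ ((Btot hw k0 N).H e z) (dV (s.f e) z) := by
  simp only [en_tot]
  exact IsDensity.sum _ fun S _ => dens_gradb s S

lemma inner_tot (s t : (Btot hw k0 N).S) : inner ℂ s t =
    ∑ S : FI N, ipX (1 + S.card * k0) w (Bun.blk t.f S) (Bun.blk s.f S) := by
  rw [Bun.inner_eq]
  have h1 : (Btot hw k0 N).den s.f t.f = fun e z => ∑ S : FI N,
      (FB (1 + S.card * k0) hw).den (Bun.blk s.f S) (Bun.blk t.f S) e z := by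
    funext e z
    exact Bun.den_sum _ _ _ _
  rw [h1, intC_sum' _ fun S _ => Bun.isDen (Bun.isSec_blk s.isSec S) (Bun.isSec_blk t.isSec S)]
  refine Finset.sum_congr rfl fun S _ => ?_
  have h2 : (FB (1 + S.card * k0) hw).den (Bun.blk s.f S) (Bun.blk t.f S) =
      hpX (1 + S.card * k0) w (Bun.blk t.f S) (Bun.blk s.f S) := by
    funext e z
    exact den_FB _ _ _ _
  rw [h2]
  rfl

omit [IsManifold 𝓘(ℂ, Cm n) ω Z] [T2Space Z] [CompactSpace Z] in
lemma hpX_congr {k : ℕ} {g g' h h' : Frm n Z} {e : Chart n Z} {z : Cm n} (hg : g e z = g' e z)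
    (hh : h e z = h' e z) : hpX k w g h e z = hpX k w g' h' e z := by
  unfold hpX; rw [hg, hh]

lemma ipX_congr {k : ℕ} {g g' h h' : Frm n Z} (hg : ∀ e x, At e x → g e (e x) = g' e (e x))
    (hh : ∀ e x, At e x → h e (e x) = h' e (e x)) : ipX k w g h = ipX k w g' h' := by
  change IX.intC (hpX k w g h) = IX.intC (hpX k w g' h')
  exact IX.intC_congr fun e x hx => hpX_congr (hg e x hx) (hh e x hx)

/-- `D' + δ` is symmetric -/
theorem tot_symm (hD : TotOp Dt) (s t : (Btot hw k0 N).S) :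
    inner ℂ (Dt s) t = inner ℂ s (Dt t) := by
  rw [inner_tot, inner_tot]
  refine Finset.sum_congr rfl fun S _ => ?_
  rw [ipX_congr (g := Bun.blk t.f S) (g' := Bun.blk t.f S) (fun _ _ _ => rfl)
      (fun e x hx => blk_Dt hD s S hx),
    ipX_congr (h := Bun.blk s.f S) (h' := Bun.blk s.f S) (fun e x hx => blk_Dt hD t S hx)
      (fun _ _ _ => rfl)]
  exact (ipX_dd hw (isSec_blk' t S) (isSec_blk' s S)).symm

/-- the Bochner-Kodaira-Nakano inequality on the total bundle -/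
theorem tot_bkn (hric : D.RicNonneg w) (hD : TotOp Dt) (s : (Btot hw k0 N).S) :
    intX (fun e z => en (w e z)⁻¹ ((Btot hw k0 N).H e z) (dV (s.f e) z)) ≤ ‖Dt s‖ ^ 2 := by
  simp only [en_tot]
  rw [intX_sum _ fun S _ => dens_gradb s S]
  have h1 : ‖Dt s‖ ^ 2 = ∑ S : FI N, (ipX (1 + S.card * k0) w
      (DDX (1 + S.card * k0) w (Bun.blk s.f S)) (DDX (1 + S.card * k0) w (Bun.blk s.f S))).re := by
    rw [← inner_self_eq_norm_sq (𝕜 := ℂ), inner_tot]
    change (∑ S : FI N, ipX (1 + S.card * k0) w (Bun.blk (Dt s).f S) (Bun.blk (Dt s).f S)).re = _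
    rw [Complex.re_sum]
    refine Finset.sum_congr rfl fun S _ => ?_
    rw [ipX_congr (fun e x hx => blk_Dt hD s S hx) (fun e x hx => blk_Dt hD s S hx)]
  rw [h1]
  refine Finset.sum_le_sum fun S _ => ?_
  rw [← G.intC_re]
  exact bknX_le hw hric (isSec_blk' s S)

/-! ### first order form -/

/-- coefficients of `∂_l` -/
def tA (l : Fin n) (_ : Chart n Z) (_ : Cm n) : Matrix (FI n × FI N) (FI n × FI N) ℂ :=
  eps l ⊗ₖ (1 : FM N)

/-- coefficients of `∂̄_b` -/
def tAb (w : D.FormM n Z) (b : Fin n) (e : Chart n Z) (z : Cm n) :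
    Matrix (FI n × FI N) (FI n × FI N) ℂ := -(epd b (w e) z ⊗ₖ (1 : FM N))

/-- zeroth order coefficient -/
def tC (k0 : ℕ) (w : D.FormM n Z) (e : Chart n Z) (z : Cm n) :
    Matrix (FI n × FI N) (FI n × FI N) ℂ :=
  ∑ l, (eps l ⊗ₖ (1 : FM N)) * (tG l (w e) z • ((1 : FM n) ⊗ₖ KK k0 N))

omit [IsManifold 𝓘(ℂ, Cm n) ω Z] [T2Space Z] [CompactSpace Z] in
lemma DDt_act (u : Chart n Z → Cm n → FI n × FI N → ℂ) (e : Chart n Z) (z : Cm n) :
    Kz.DDt k0 (w e) (u e) z = act tA (tAb w) (tC k0 w) u e z := by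
  rw [Kz.DDt_eq]
  unfold act tA tAb tC
  rw [Finset.sum_add_distrib, Matrix.sum_mulVec, add_right_comm, ← Finset.sum_add_distrib]
  rw [sub_eq_add_neg, ← Finset.sum_neg_distrib]
  congr 1
  · refine Finset.sum_congr rfl fun l _ => ?_
    rw [Matrix.mulVec_add, ← Matrix.mulVec_mulVec, Matrix.smul_mulVec]
  · exact Finset.sum_congr rfl fun b _ => by rw [Matrix.neg_mulVec]

omit [IsManifold 𝓘(ℂ, Cm n) ω Z] [T2Space Z] [CompactSpace Z] in
lemma tAb_cont (hw : IsKahler w) (b : Fin n) (e : Chart n Z) (x : Z) (hx : At e x)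
    (p q : FI n × FI N) : ContinuousAt (fun z => tAb (N := N) w b e z p q) (e x) := by
  have h1 : ContinuousAt (fun z => epd b (w e) z p.1 q.1) (e x) :=
    (MC_epd (G.kat w hw hx) b p.1 q.1).continuousAt
  exact (ContinuousAt.mul (g := fun _ => (1 : FM N) p.2 q.2) h1 continuousAt_const).neg

theorem tot_comm_bounded (hD : TotOp Dt) (χ : Z → ℝ) (hχ : SmoothFn (n := n) χ) :
    ∃ C : ℝ, ∀ s : (Btot hw k0 N).S, ‖Dt (smS χ hχ s) - smS χ hχ (Dt s)‖ ≤ C * ‖s‖ :=
  comm_bounded (A := tA) (Ab := tAb w) (C := tC k0 w)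
    (fun s e x hx => (hD s e x hx).trans (DDt_act _ _ _))
    (fun l _ _ _ p q => continuousAt_const (y := (eps l ⊗ₖ (1 : FM N)) p q))
    (fun b e x hx => tAb_cont hw b e x hx) χ hχ

theorem tot_comm_comm (hD : TotOp Dt) (χ : Z → ℝ) (hχ : SmoothFn (n := n) χ)
    (s : (Btot hw k0 N).S) :
    Dt (smS χ hχ (smS χ hχ s)) - smS χ hχ (Dt (smS χ hχ s)) =
      smS χ hχ (Dt (smS χ hχ s) - smS χ hχ (Dt s)) :=
  comm_comm (A := tA) (Ab := tAb w) (C := tC k0 w)
    (fun s e x hx => (hD s e x hx).trans (DDt_act _ _ _)) χ hχ s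

end tot

end Vale.Agent.P299.H721
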